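import Crest.Agent.R130.Abstract
import Crest.Agent.R130.Defs
import Crest.Agent.R130.AtomlessMap
import Mathlib

-- ▼ part R130/Strict
section

/-!
# R130 (S0175): Monge plans are strictly costlier
-/

set_option autoImplicit false

open MeasureTheory Set
open scoped ENNReal
open Crest.AnalysisR.OT

namespace Crest.Agent.R130

/-- The five clusters. -/
def clusters {E : Type*} (A : Set E) (Y W : Fin 2 → E → E) : Set E :=
  A ∪ (⋃ i, Y i '' A) ∪ (⋃ i, W i '' A)

variable {E : Type*} [NormedAddCommGroup E] [SecondCountableTopology E] [MeasurableSpace E]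
  [BorelSpace E]

theorem branch_null {m μ : Measure E} [IsFiniteMeasure m] {U : Set E} (hUm : MeasurableSet U)
    (hU : ∀ᵐ x ∂m, x ∈ U) (hμ : ∀ s : Set E, MeasurableSet s → 2 * m s ≤ μ s)
    {V V' : E → E} (hV : Measurable V) (hV' : Measurable V') (hVV : ∀ x ∈ U, V' (V x) = x)
    (hVU : MeasurableSet (V '' U))
    (hμV : ∀ s : Set E, s ⊆ V '' U → MeasurableSet s → μ s ≤ m (V ⁻¹' s))
    {T : E → E} (hT : Measurable T) (hTμ : μ.map T = μ) :
    m (U ∩ {x | T x = V x}) = 0 := by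
  set A := U ∩ {x | T x = V x} with hA
  have hAm : MeasurableSet A := hUm.inter (measurableSet_eq_fun hT hV)
  set s := V '' U ∩ V' ⁻¹' A with hs
  have hsm : MeasurableSet s := hVU.inter (hV' hAm)
  have h1 : m (V ⁻¹' s) ≤ m A := by
    refine measure_mono_ae ?_
    filter_upwards [hU] with x hx hxs
    have h2 : V' (V x) ∈ A := hxs.2
    rwa [hVV x hx] at h2
  have h2 : A ⊆ T ⁻¹' s := by
    intro x hx
    have hx2 : T x = V x := hx.2
    refine ⟨?_, ?_⟩
    · rw [hx2]; exact mem_image_of_mem _ hx.1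
    · show V' (T x) ∈ A
      rw [hx2, hVV x hx.1]
      exact hx
  have h3 : 2 * m A ≤ m A := calc
    2 * m A ≤ μ A := hμ A hAm
    _ ≤ μ (T ⁻¹' s) := measure_mono h2
    _ = (μ.map T) s := (Measure.map_apply hT hsm).symm
    _ = μ s := by rw [hTμ]
    _ ≤ m (V ⁻¹' s) := hμV s inter_subset_left hsm
    _ ≤ m A := h1
  by_contra h0
  have hfin : m A ≠ ⊤ := measure_ne_top _ _
  rw [two_mul] at h3
  have : m A < m A + m A := ENNReal.lt_add_right hfin h0
  exact absurd h3 (not_le.mpr this)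

omit [NormedAddCommGroup E] [SecondCountableTopology E] [BorelSpace E] in
theorem ae_mem_clusters {m : Measure E} {U : Set E} (hU : ∀ᵐ x ∂m, x ∈ U)
    {Y W : Fin 2 → E → E} (hY : ∀ i, Measurable (Y i)) (hW : ∀ i, Measurable (W i))
    (hNm : MeasurableSet (clusters U Y W)) :
    ∀ᵐ x ∂(mu5 m Y W), x ∈ clusters U Y W := by
  have h0 : ∀ x ∈ U, x ∈ clusters U Y W := fun x hx => Or.inl (Or.inl hx)
  have hYm : ∀ i, ∀ x ∈ U, Y i x ∈ clusters U Y W := fun i x hx =>
    Or.inl (Or.inr (mem_iUnion.mpr ⟨i, mem_image_of_mem _ hx⟩))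
  have hWm : ∀ i, ∀ x ∈ U, W i x ∈ clusters U Y W := fun i x hx =>
    Or.inr (mem_iUnion.mpr ⟨i, mem_image_of_mem _ hx⟩)
  rw [ae_iff]
  change mu5 m Y W (clusters U Y W)ᶜ = 0
  rw [mu5_apply hY hW hNm.compl]
  have e0 : m (clusters U Y W)ᶜ = 0 := by
    refine measure_mono_null ?_ hU
    intro x hx hxU
    exact hx (h0 x hxU)
  have e1 : ∀ i, m (Y i ⁻¹' (clusters U Y W)ᶜ) = 0 := by
    intro i
    refine measure_mono_null ?_ hU
    intro x hx hxU
    exact hx (hYm i x hxU)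
  have e2 : ∀ i, m (W i ⁻¹' (clusters U Y W)ᶜ) = 0 := by
    intro i
    refine measure_mono_null ?_ hU
    intro x hx hxU
    exact hx (hWm i x hxU)
  rw [e0, Finset.sum_eq_zero (fun i _ => e1 i), Finset.sum_eq_zero (fun i _ => e2 i)]
  simp

theorem monge_strict {m : Measure E} [IsFiniteMeasure m] (hm0 : m ≠ 0) {U : Set E}
    (hUm : MeasurableSet U) (hU : ∀ᵐ x ∂m, x ∈ U)
    {Y X W Z : Fin 2 → E → E} (hY : ∀ i, Measurable (Y i)) (hX : ∀ i, Measurable (X i))
    (hW : ∀ i, Measurable (W i)) (hZ : ∀ i, Measurable (Z i))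
    (hYX : ∀ i, ∀ x ∈ U, X i (Y i x) = x) (hWZ : ∀ i, ∀ x ∈ U, Z i (W i x) = x)
    (hYU : ∀ i, MeasurableSet (Y i '' U)) (hWU : ∀ i, MeasurableSet (W i '' U))
    (d1 : ∀ i, Disjoint U (Y i '' U)) (d2 : ∀ i, Disjoint U (W i '' U))
    (d3 : ∀ i j, Disjoint (Y i '' U) (W j '' U))
    (d4 : Disjoint (Y 0 '' U) (Y 1 '' U)) (d5 : Disjoint (W 0 '' U) (W 1 '' U))
    {cost : E × E × E → ℝ≥0∞} (hcost : Measurable cost) {Φ : E → ℝ≥0∞} (hΦ : Measurable Φ)
    (hfin : ∫⁻ x, Φ x ∂(mu5 m Y W) ≠ ⊤)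
    (hdual : ∀ x ∈ clusters U Y W, ∀ y ∈ clusters U Y W, ∀ z ∈ clusters U Y W,
      Φ x + Φ y + Φ z ≤ cost (x, y, z))
    (hslack : ∀ x ∈ U, ∀ y ∈ clusters U Y W, ∀ z ∈ clusters U Y W,
      Φ x + Φ y + Φ z = cost (x, y, z) → ∃ i, y = Y i x ∨ y = W i x)
    {T₂ T₃ : E → E} (hT₂ : Measurable T₂) (hT₃ : Measurable T₃)
    (hT₂μ : (mu5 m Y W).map T₂ = mu5 m Y W) (hT₃μ : (mu5 m Y W).map T₃ = mu5 m Y W) :
    3 * ∫⁻ x, Φ x ∂(mu5 m Y W) < ∫⁻ x, cost (x, T₂ x, T₃ x) ∂(mu5 m Y W) := by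
  set μ := mu5 m Y W with hμdef
  have hNm : MeasurableSet (clusters U Y W) :=
    (hUm.union (MeasurableSet.iUnion hYU)).union (MeasurableSet.iUnion hWU)
  have hN : ∀ᵐ x ∂μ, x ∈ clusters U Y W := ae_mem_clusters hU hY hW hNm
  have hN2 : ∀ᵐ x ∂μ, T₂ x ∈ clusters U Y W := by
    have : ∀ᵐ x ∂(μ.map T₂), x ∈ clusters U Y W := by rw [hT₂μ]; exact hN
    exact ae_of_ae_map hT₂.aemeasurable this
  have hN3 : ∀ᵐ x ∂μ, T₃ x ∈ clusters U Y W := by
    have : ∀ᵐ x ∂(μ.map T₃), x ∈ clusters U Y W := by rw [hT₃μ]; exact hN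
    exact ae_of_ae_map hT₃.aemeasurable this
  have hint : ∫⁻ x, (Φ x + Φ (T₂ x) + Φ (T₃ x)) ∂μ = 3 * ∫⁻ x, Φ x ∂μ := by
    have e2 : ∫⁻ x, Φ (T₂ x) ∂μ = ∫⁻ x, Φ x ∂μ := by
      conv_rhs => rw [← hT₂μ]
      rw [lintegral_map hΦ hT₂]
    have e3 : ∫⁻ x, Φ (T₃ x) ∂μ = ∫⁻ x, Φ x ∂μ := by
      conv_rhs => rw [← hT₃μ]
      rw [lintegral_map hΦ hT₃]
    rw [lintegral_add_left (by fun_prop), lintegral_add_left (by fun_prop), e2, e3]
    ring
  have hle : (fun x => Φ x + Φ (T₂ x) + Φ (T₃ x)) ≤ᵐ[μ] fun x => cost (x, T₂ x, T₃ x) := by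
    filter_upwards [hN, hN2, hN3] with x h1 h2 h3
    exact hdual _ h1 _ h2 _ h3
  rw [← hint]
  refine lt_of_le_of_ne (lintegral_mono_ae hle) ?_
  intro heq
  have hfin' : ∫⁻ x, (Φ x + Φ (T₂ x) + Φ (T₃ x)) ∂μ ≠ ⊤ := by
    rw [hint]
    exact ENNReal.mul_ne_top (by simp) hfin
  have hae := ae_eq_of_ae_le_of_lintegral_le hle hfin' (by fun_prop) heq.ge
  -- transfer to m
  have hμge : ∀ s : Set E, MeasurableSet s → 2 * m s ≤ μ s := by
    intro s hs
    rw [hμdef, mu5_apply hY hW hs, add_assoc]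
    exact le_self_add
  have hac : m ≪ μ := by
    refine Measure.AbsolutelyContinuous.mk fun s hs h0 => ?_
    have := hμge s hs
    rw [h0] at this
    simpa using this
  have hall : ∀ᵐ x ∂m, x ∈ ⋃ i, ((U ∩ {x | T₂ x = Y i x}) ∪ (U ∩ {x | T₂ x = W i x})) := by
    filter_upwards [hac.ae_le hae, hac.ae_le hN2, hac.ae_le hN3, hU] with x h1 h2 h3 h4
    obtain ⟨i, hi⟩ := hslack x h4 _ h2 _ h3 h1
    refine mem_iUnion.mpr ⟨i, ?_⟩
    rcases hi with hi | hi
    · exact Or.inl ⟨h4, hi⟩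
    · exact Or.inr ⟨h4, hi⟩
  -- disjointness bookkeeping
  have hne : ∀ {A B : Set E}, Disjoint A B → ∀ x, x ∈ A → x ∈ B → False := fun h x ha hb =>
    Set.disjoint_left.mp h ha hb
  have d4' : ∀ i j, i ≠ j → Disjoint (Y i '' U) (Y j '' U) := by
    intro i j hij
    fin_cases i <;> fin_cases j
    · exact absurd rfl hij
    · exact d4
    · exact d4.symm
    · exact absurd rfl hij
  have d5' : ∀ i j, i ≠ j → Disjoint (W i '' U) (W j '' U) := by
    intro i j hij
    fin_cases i <;> fin_cases j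
    · exact absurd rfl hij
    · exact d5
    · exact d5.symm
    · exact absurd rfl hij
  have null_of : ∀ (V : E → E) (s : Set E), (∀ x ∈ U, V x ∉ s) → m (V ⁻¹' s) = 0 := by
    intro V s h
    refine measure_mono_null ?_ hU
    intro x hx hxU
    exact h x hxU hx
  have hYnull : ∀ i, m (U ∩ {x | T₂ x = Y i x}) = 0 := by
    intro i
    refine branch_null hUm hU hμge (hY i) (hX i) (hYX i) (hYU i) ?_ hT₂ hT₂μ
    intro s hs hsm
    rw [hμdef, mu5_apply hY hW hsm]
    have e0 : m s = 0 := null_of id s fun x hx hxs => hne (d1 i) x hx (hs hxs)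
    have eW : ∀ j, m (W j ⁻¹' s) = 0 := fun j =>
      null_of (W j) s fun x hx hxs => hne (d3 i j) _ (hs hxs) (mem_image_of_mem _ hx)
    have eY : ∀ j, j ≠ i → m (Y j ⁻¹' s) = 0 := fun j hj =>
      null_of (Y j) s fun x hx hxs => hne (d4' j i hj) _ (mem_image_of_mem _ hx) (hs hxs)
    rw [e0, Finset.sum_eq_single i (fun j _ hj => eY j hj) (by simp),
      Finset.sum_eq_zero (fun j _ => eW j)]
    simp
  have hWnull : ∀ i, m (U ∩ {x | T₂ x = W i x}) = 0 := by
    intro i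
    refine branch_null hUm hU hμge (hW i) (hZ i) (hWZ i) (hWU i) ?_ hT₂ hT₂μ
    intro s hs hsm
    rw [hμdef, mu5_apply hY hW hsm]
    have e0 : m s = 0 := null_of id s fun x hx hxs => hne (d2 i) x hx (hs hxs)
    have eY : ∀ j, m (Y j ⁻¹' s) = 0 := fun j =>
      null_of (Y j) s fun x hx hxs => hne (d3 j i) _ (mem_image_of_mem _ hx) (hs hxs)
    have eW : ∀ j, j ≠ i → m (W j ⁻¹' s) = 0 := fun j hj =>
      null_of (W j) s fun x hx hxs => hne (d5' j i hj) _ (mem_image_of_mem _ hx) (hs hxs)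
    rw [e0, Finset.sum_eq_single i (fun j _ hj => eW j hj) (by simp),
      Finset.sum_eq_zero (fun j _ => eY j)]
    simp
  have hzero : m (⋃ i, ((U ∩ {x | T₂ x = Y i x}) ∪ (U ∩ {x | T₂ x = W i x}))) = 0 := by
    rw [measure_iUnion_null_iff]
    intro i
    exact measure_union_null (hYnull i) (hWnull i)
  apply hm0
  rw [← Measure.measure_univ_eq_zero]
  have h5 : m (⋃ i, ((U ∩ {x | T₂ x = Y i x}) ∪ (U ∩ {x | T₂ x = W i x})))ᶜ = 0 := hall
  refine le_antisymm ?_ bot_le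
  calc m univ ≤ m (⋃ i, ((U ∩ {x | T₂ x = Y i x}) ∪ (U ∩ {x | T₂ x = W i x}))) +
      m (⋃ i, ((U ∩ {x | T₂ x = Y i x}) ∪ (U ∩ {x | T₂ x = W i x})))ᶜ := by
        rw [← Set.union_compl_self (⋃ i, ((U ∩ {x | T₂ x = Y i x}) ∪ (U ∩ {x | T₂ x = W i x})))]
        exact measure_union_le _ _
    _ = 0 := by rw [hzero, h5, add_zero]

end Crest.Agent.R130
end

-- ▼ part R130/Approx
section

/-!
# R130 (S0175): Monge plans approach the minimum
-/

set_option autoImplicit false

open MeasureTheory Set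
open scoped ENNReal
open Crest.AnalysisR.OT

namespace Crest.Agent.R130

theorem map_ite {E : Type*} [MeasurableSpace E] {F : Type*} [MeasurableSpace F] {m : Measure E} {S : Set E} (hS : MeasurableSet S)
    [DecidablePred (· ∈ S)] {f g : E → F} (hf : Measurable f) (hg : Measurable g) :
    m.map (fun x => if x ∈ S then f x else g x) = (m.restrict S).map f + (m.restrict Sᶜ).map g := by
  have hh : Measurable (fun x => if x ∈ S then f x else g x) := Measurable.ite hS hf hg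
  ext s hs
  rw [Measure.add_apply, Measure.map_apply hh hs, Measure.map_apply hf hs,
    Measure.map_apply hg hs, Measure.restrict_apply (hf hs), Measure.restrict_apply (hg hs),
    ← measure_inter_add_sdiff _ hS]
  congr 1
  · congr 1
    ext x
    simp only [mem_inter_iff, mem_preimage]
    constructor
    · rintro ⟨h1, h2⟩
      rw [if_pos h2] at h1
      exact ⟨h1, h2⟩
    · rintro ⟨h1, h2⟩
      rw [if_pos h2]
      exact ⟨h1, h2⟩
  · congr 1
    ext x
    simp only [mem_sdiff, mem_inter_iff, mem_preimage, mem_compl_iff]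
    constructor
    · rintro ⟨h1, h2⟩
      rw [if_neg h2] at h1
      exact ⟨h1, h2⟩
    · rintro ⟨h1, h2⟩
      rw [if_neg h2]
      exact ⟨h1, h2⟩

variable {E : Type*} [PseudoMetricSpace E] [MeasurableSpace E]

theorem monge_approx {m : Measure E} [IsFiniteMeasure m] (hm1 : 2 * m univ ≤ 1) {U K : Set E}
    (hUm : MeasurableSet U) (hKU : K ⊆ U) (hK : ∀ᵐ x ∂m, x ∈ K)
    {Y X W Z : Fin 2 → E → E} (hY : ∀ i, Measurable (Y i)) (hX : ∀ i, Measurable (X i))
    (hW : ∀ i, Measurable (W i)) (hZ : ∀ i, Measurable (Z i))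
    (hYX : ∀ i, ∀ x ∈ U, X i (Y i x) = x) (hWZ : ∀ i, ∀ x ∈ U, Z i (W i x) = x)
    (hYU : ∀ i, MeasurableSet (Y i '' U)) (hWU : ∀ i, MeasurableSet (W i '' U))
    (d1 : ∀ i, Disjoint U (Y i '' U)) (d2 : ∀ i, Disjoint U (W i '' U))
    (d3 : ∀ i j, Disjoint (Y i '' U) (W j '' U))
    (d4 : Disjoint (Y 0 '' U) (Y 1 '' U)) (d5 : Disjoint (W 0 '' U) (W 1 '' U))
    {cost : E × E × E → ℝ≥0∞} (hcost : Measurable cost)
    (hcont : ∀ η : ℝ≥0∞, 0 < η → ∃ δ : ℝ, 0 < δ ∧ ∀ i, ∀ x ∈ K, ∀ x' ∈ K, dist x' x ≤ δ →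
      cost (x, Y i x', W i x') ≤ cost (x', Y i x', W i x') + η)
    (hdoub : ∀ ε : ℝ, 0 < ε → ∃ D : E → E, Measurable D ∧ ∃ S : Set E, MeasurableSet S ∧
      (m.restrict S).map D = (2⁻¹ : ℝ≥0∞) • m ∧ (m.restrict Sᶜ).map D = (2⁻¹ : ℝ≥0∞) • m ∧
      ∀ᵐ x ∂m, dist (D x) x ≤ ε)
    (hfin : ∫⁻ p, cost p ∂(plan m Y W) ≠ ⊤)
    (ε : ℝ≥0∞) (hε : 0 < ε) :
    ∃ T₂ T₃ : E → E, Measurable T₂ ∧ Measurable T₃ ∧
      (mu5 m Y W).map T₂ = mu5 m Y W ∧ (mu5 m Y W).map T₃ = mu5 m Y W ∧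
      ∫⁻ x, cost (x, T₂ x, T₃ x) ∂(mu5 m Y W) < ∫⁻ p, cost p ∂(plan m Y W) + ε := by
  classical
  obtain ⟨η, hη0, hηε⟩ := exists_between hε
  obtain ⟨δ, hδ0, hδ⟩ := hcont η hη0
  obtain ⟨D, hD, S, hS, hDS, hDS', hDx⟩ := hdoub δ hδ0
  have hU : ∀ᵐ x ∂m, x ∈ U := hK.mono fun x hx => hKU hx
  -- disjointness bookkeeping
  have ne1 : ∀ i, ∀ x ∈ U, Y i x ∉ U := fun i x hx h =>
    Set.disjoint_left.mp (d1 i) h (mem_image_of_mem _ hx)
  have ne2 : ∀ i, ∀ x ∈ U, W i x ∉ U := fun i x hx h =>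
    Set.disjoint_left.mp (d2 i) h (mem_image_of_mem _ hx)
  have ne3 : ∀ i j, ∀ x ∈ U, W i x ∉ Y j '' U := fun i j x hx h =>
    Set.disjoint_left.mp (d3 j i) h (mem_image_of_mem _ hx)
  have ne4 : ∀ x ∈ U, Y 1 x ∉ Y 0 '' U := fun x hx h =>
    Set.disjoint_left.mp d4 h (mem_image_of_mem _ hx)
  have ne5 : ∀ x ∈ U, W 1 x ∉ W 0 '' U := fun x hx h =>
    Set.disjoint_left.mp d5 h (mem_image_of_mem _ hx)
  let A₂ : E → E := fun x => if x ∈ S then Y 0 (D x) else Y 1 (D x)
  let A₃ : E → E := fun x => if x ∈ S then W 0 (D x) else W 1 (D x)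
  have hA₂ : Measurable A₂ := Measurable.ite hS ((hY 0).comp hD) ((hY 1).comp hD)
  have hA₃ : Measurable A₃ := Measurable.ite hS ((hW 0).comp hD) ((hW 1).comp hD)
  let T₂ : E → E := fun x => if x ∈ U then A₂ x else if x ∈ Y 0 '' U then W 0 (X 0 x) else
    if x ∈ Y 1 '' U then W 1 (X 1 x) else if x ∈ W 0 '' U then Z 0 x else Z 1 x
  let T₃ : E → E := fun x => if x ∈ U then A₃ x else if x ∈ Y 0 '' U then X 0 x else
    if x ∈ Y 1 '' U then X 1 x else if x ∈ W 0 '' U then Y 0 (Z 0 x) else Y 1 (Z 1 x)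
  have hT₂ : Measurable T₂ := by
    refine Measurable.ite hUm hA₂ (Measurable.ite (hYU 0) ((hW 0).comp (hX 0))
      (Measurable.ite (hYU 1) ((hW 1).comp (hX 1)) (Measurable.ite (hWU 0) (hZ 0) (hZ 1))))
  have hT₃ : Measurable T₃ := by
    refine Measurable.ite hUm hA₃ (Measurable.ite (hYU 0) (hX 0)
      (Measurable.ite (hYU 1) (hX 1) (Measurable.ite (hWU 0) ((hY 0).comp (hZ 0))
        ((hY 1).comp (hZ 1)))))
  -- values
  have v2U : ∀ x ∈ U, T₂ x = A₂ x := fun x hx => if_pos hx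
  have v3U : ∀ x ∈ U, T₃ x = A₃ x := fun x hx => if_pos hx
  have v2Y : ∀ i, ∀ x ∈ U, T₂ (Y i x) = W i x := by
    intro i x hx
    fin_cases i
    · have a : Y 0 x ∈ Y 0 '' U := mem_image_of_mem _ hx
      simp only [T₂, Fin.zero_eta, if_neg (ne1 0 x hx), if_pos a, hYX 0 x hx]
    · have a : Y 1 x ∈ Y 1 '' U := mem_image_of_mem _ hx
      simp only [T₂, Fin.mk_one, if_neg (ne1 1 x hx), if_neg (ne4 x hx), if_pos a, hYX 1 x hx]
  have v3Y : ∀ i, ∀ x ∈ U, T₃ (Y i x) = x := by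
    intro i x hx
    fin_cases i
    · have a : Y 0 x ∈ Y 0 '' U := mem_image_of_mem _ hx
      simp only [T₃, Fin.zero_eta, if_neg (ne1 0 x hx), if_pos a, hYX 0 x hx]
    · have a : Y 1 x ∈ Y 1 '' U := mem_image_of_mem _ hx
      simp only [T₃, Fin.mk_one, if_neg (ne1 1 x hx), if_neg (ne4 x hx), if_pos a, hYX 1 x hx]
  have v2W : ∀ i, ∀ x ∈ U, T₂ (W i x) = x := by
    intro i x hx
    fin_cases i
    · have a : W 0 x ∈ W 0 '' U := mem_image_of_mem _ hx
      simp only [T₂, Fin.zero_eta, if_neg (ne2 0 x hx), if_neg (ne3 0 0 x hx),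
        if_neg (ne3 0 1 x hx), if_pos a, hWZ 0 x hx]
    · simp only [T₂, Fin.mk_one, if_neg (ne2 1 x hx), if_neg (ne3 1 0 x hx),
        if_neg (ne3 1 1 x hx), if_neg (ne5 x hx), hWZ 1 x hx]
  have v3W : ∀ i, ∀ x ∈ U, T₃ (W i x) = Y i x := by
    intro i x hx
    fin_cases i
    · have a : W 0 x ∈ W 0 '' U := mem_image_of_mem _ hx
      simp only [T₃, Fin.zero_eta, if_neg (ne2 0 x hx), if_neg (ne3 0 0 x hx),
        if_neg (ne3 0 1 x hx), if_pos a, hWZ 0 x hx]
    · simp only [T₃, Fin.mk_one, if_neg (ne2 1 x hx), if_neg (ne3 1 0 x hx),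
        if_neg (ne3 1 1 x hx), if_neg (ne5 x hx), hWZ 1 x hx]
  -- pushforwards
  have mapA₂ : m.map A₂ = (2⁻¹ : ℝ≥0∞) • m.map (Y 0) + (2⁻¹ : ℝ≥0∞) • m.map (Y 1) := by
    have h1 : m.map A₂ = (m.restrict S).map (fun x => Y 0 (D x)) +
        (m.restrict Sᶜ).map (fun x => Y 1 (D x)) :=
      map_ite hS ((hY 0).comp hD) ((hY 1).comp hD)
    have h2 : (m.restrict S).map (fun x => Y 0 (D x)) = (2⁻¹ : ℝ≥0∞) • m.map (Y 0) := by
      rw [← Measure.map_smul, ← hDS, Measure.map_map (hY 0) hD]; rfl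
    have h3 : (m.restrict Sᶜ).map (fun x => Y 1 (D x)) = (2⁻¹ : ℝ≥0∞) • m.map (Y 1) := by
      rw [← Measure.map_smul, ← hDS', Measure.map_map (hY 1) hD]; rfl
    rw [h1, h2, h3]
  have mapA₃ : m.map A₃ = (2⁻¹ : ℝ≥0∞) • m.map (W 0) + (2⁻¹ : ℝ≥0∞) • m.map (W 1) := by
    have h1 : m.map A₃ = (m.restrict S).map (fun x => W 0 (D x)) +
        (m.restrict Sᶜ).map (fun x => W 1 (D x)) :=
      map_ite hS ((hW 0).comp hD) ((hW 1).comp hD)
    have h2 : (m.restrict S).map (fun x => W 0 (D x)) = (2⁻¹ : ℝ≥0∞) • m.map (W 0) := by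
      rw [← Measure.map_smul, ← hDS, Measure.map_map (hW 0) hD]; rfl
    have h3 : (m.restrict Sᶜ).map (fun x => W 1 (D x)) = (2⁻¹ : ℝ≥0∞) • m.map (W 1) := by
      rw [← Measure.map_smul, ← hDS', Measure.map_map (hW 1) hD]; rfl
    rw [h1, h2, h3]
  have half : ∀ ν : Measure E, (2 : ℝ≥0∞) • ((2⁻¹ : ℝ≥0∞) • ν) = ν := by
    intro ν
    rw [smul_smul, ENNReal.mul_inv_cancel (by simp) (by simp), one_smul]
  have hmapid : m.map (fun x => x) = m := Measure.map_id
  refine ⟨T₂, T₃, hT₂, hT₃, ?_, ?_, ?_⟩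
  · rw [map_mu5 hY hW hT₂]
    have e0 : m.map T₂ = m.map A₂ := Measure.map_congr (hU.mono fun x hx => v2U x hx)
    have e1 : ∀ i, m.map (fun x => T₂ (Y i x)) = m.map (W i) := fun i =>
      Measure.map_congr (hU.mono fun x hx => v2Y i x hx)
    have e2 : ∀ i, m.map (fun x => T₂ (W i x)) = m := fun i =>
      (Measure.map_congr (hU.mono fun x hx => v2W i x hx)).trans hmapid
    simp only [e0, e1, e2, mapA₂, mu5, Fin.sum_univ_two, smul_add, half, two_smul]
    abel
  · rw [map_mu5 hY hW hT₃]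
    have e0 : m.map T₃ = m.map A₃ := Measure.map_congr (hU.mono fun x hx => v3U x hx)
    have e1 : ∀ i, m.map (fun x => T₃ (Y i x)) = m := fun i =>
      (Measure.map_congr (hU.mono fun x hx => v3Y i x hx)).trans hmapid
    have e2 : ∀ i, m.map (fun x => T₃ (W i x)) = m.map (Y i) := fun i =>
      Measure.map_congr (hU.mono fun x hx => v3W i x hx)
    simp only [e0, e1, e2, mapA₃, mu5, Fin.sum_univ_two, smul_add, half, two_smul]
    abel
  · -- cost estimate
    have hKD : ∀ᵐ x ∂(m.restrict S), D x ∈ K := by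
      have : ∀ᵐ x ∂((m.restrict S).map D), x ∈ K := by
        rw [hDS]; exact Measure.ae_smul_measure hK _
      exact ae_of_ae_map hD.aemeasurable this
    have hKD' : ∀ᵐ x ∂(m.restrict Sᶜ), D x ∈ K := by
      have : ∀ᵐ x ∂((m.restrict Sᶜ).map D), x ∈ K := by
        rw [hDS']; exact Measure.ae_smul_measure hK _
      exact ae_of_ae_map hD.aemeasurable this
    have part : ∀ (i : Fin 2) (R : Set E), MeasurableSet R →
        (m.restrict R).map D = (2⁻¹ : ℝ≥0∞) • m → (∀ᵐ x ∂(m.restrict R), D x ∈ K) →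
        ∫⁻ x in R, cost (x, Y i (D x), W i (D x)) ∂m ≤
          2⁻¹ * ∫⁻ x, cost (x, Y i x, W i x) ∂m + η * m R := by
      intro i R hR hmap hDK
      have hYi := hY i
      have hWi := hW i
      calc ∫⁻ x in R, cost (x, Y i (D x), W i (D x)) ∂m
          ≤ ∫⁻ x in R, (cost (D x, Y i (D x), W i (D x)) + η) ∂m := by
            refine lintegral_mono_ae ?_
            filter_upwards [hDK, ae_restrict_of_ae hK, ae_restrict_of_ae hDx] with x h1 h2 h3
            exact hδ i x h2 _ h1 h3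
        _ = ∫⁻ x in R, cost (D x, Y i (D x), W i (D x)) ∂m + η * m R := by
            rw [lintegral_add_right _ measurable_const, lintegral_const,
              Measure.restrict_apply_univ]
        _ = 2⁻¹ * ∫⁻ x, cost (x, Y i x, W i x) ∂m + η * m R := by
            congr 1
            have hg : Measurable (fun x => cost (x, Y i x, W i x)) := by fun_prop
            have : ∫⁻ x, cost (x, Y i x, W i x) ∂((m.restrict R).map D) =
                ∫⁻ x in R, cost (D x, Y i (D x), W i (D x)) ∂m := lintegral_map hg hD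
            rw [← this, hmap, lintegral_smul_measure, smul_eq_mul]
    have costA : ∫⁻ x, cost (x, T₂ x, T₃ x) ∂m ≤
        2⁻¹ * ∫⁻ x, cost (x, Y 0 x, W 0 x) ∂m + 2⁻¹ * ∫⁻ x, cost (x, Y 1 x, W 1 x) ∂m +
          η * m univ := by
      rw [← lintegral_add_compl _ hS]
      have h1 : ∫⁻ x in S, cost (x, T₂ x, T₃ x) ∂m =
          ∫⁻ x in S, cost (x, Y 0 (D x), W 0 (D x)) ∂m := by
        refine lintegral_congr_ae ?_
        filter_upwards [ae_restrict_of_ae hU, ae_restrict_mem hS] with x hxU hxS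
        rw [v2U x hxU, v3U x hxU]
        simp only [A₂, A₃, if_pos hxS]
      have h2 : ∫⁻ x in Sᶜ, cost (x, T₂ x, T₃ x) ∂m =
          ∫⁻ x in Sᶜ, cost (x, Y 1 (D x), W 1 (D x)) ∂m := by
        refine lintegral_congr_ae ?_
        filter_upwards [ae_restrict_of_ae hU, ae_restrict_mem hS.compl] with x hxU hxS
        rw [v2U x hxU, v3U x hxU]
        have hxS' : x ∉ S := hxS
        simp only [A₂, A₃, if_neg hxS']
      rw [h1, h2]
      calc _ ≤ (2⁻¹ * ∫⁻ x, cost (x, Y 0 x, W 0 x) ∂m + η * m S) +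
            (2⁻¹ * ∫⁻ x, cost (x, Y 1 x, W 1 x) ∂m + η * m Sᶜ) :=
            add_le_add (part 0 S hS hDS hKD) (part 1 Sᶜ hS.compl hDS' hKD')
        _ = _ := by
            rw [← measure_add_measure_compl hS, mul_add]
            ring
    have hYW : ∀ i, Measurable (fun x => cost (x, Y i x, W i x)) := by
      intro i
      have hYi := hY i
      have hWi := hW i
      fun_prop
    have hYW2 : ∀ i, Measurable (fun x => cost (Y i x, W i x, x)) := by
      intro i
      have hYi := hY i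
      have hWi := hW i
      fun_prop
    rw [lintegral_mu5 hY hW (by fun_prop), lintegral_plan hY hW hcost]
    have eL : ∀ i, ∫⁻ x, (cost (x, T₂ x, T₃ x) + cost (Y i x, T₂ (Y i x), T₃ (Y i x)) +
        cost (W i x, T₂ (W i x), T₃ (W i x))) ∂m =
        ∫⁻ x, cost (x, T₂ x, T₃ x) ∂m + ∫⁻ x, cost (Y i x, W i x, x) ∂m +
          ∫⁻ x, cost (W i x, x, Y i x) ∂m := by
      intro i
      rw [← lintegral_add_left (by fun_prop), ← lintegral_add_left (by
        have := hYW2 i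
        fun_prop)]
      refine lintegral_congr_ae ?_
      filter_upwards [hU] with x hx
      rw [v2Y i x hx, v3Y i x hx, v2W i x hx, v3W i x hx]
    have eR : ∀ i, ∫⁻ x, (cost (x, Y i x, W i x) + cost (Y i x, W i x, x) +
        cost (W i x, x, Y i x)) ∂m =
        ∫⁻ x, cost (x, Y i x, W i x) ∂m + ∫⁻ x, cost (Y i x, W i x, x) ∂m +
          ∫⁻ x, cost (W i x, x, Y i x) ∂m := by
      intro i
      have hs : Measurable (fun x => cost (x, Y i x, W i x) + cost (Y i x, W i x, x)) :=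
        (hYW i).add (hYW2 i)
      rw [lintegral_add_left hs, lintegral_add_left (hYW i)]
    have hfin2 := hfin
    rw [lintegral_plan hY hW hcost] at hfin2
    simp only [eR, Fin.sum_univ_two] at hfin2
    simp only [eL, eR, Fin.sum_univ_two]
    set a0 := ∫⁻ x, cost (x, Y 0 x, W 0 x) ∂m
    set a1 := ∫⁻ x, cost (x, Y 1 x, W 1 x) ∂m
    set b0 := ∫⁻ x, cost (Y 0 x, W 0 x, x) ∂m
    set b1 := ∫⁻ x, cost (Y 1 x, W 1 x, x) ∂m
    set c0 := ∫⁻ x, cost (W 0 x, x, Y 0 x) ∂m
    set c1 := ∫⁻ x, cost (W 1 x, x, Y 1 x) ∂m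
    set t := ∫⁻ x, cost (x, T₂ x, T₃ x) ∂m
    have h2t : 2 * t ≤ a0 + a1 + η := by
      calc 2 * t ≤ 2 * (2⁻¹ * a0 + 2⁻¹ * a1 + η * m univ) := by gcongr
        _ = (2 * 2⁻¹) * a0 + (2 * 2⁻¹) * a1 + η * (2 * m univ) := by ring
        _ ≤ a0 + a1 + η * 1 := by
            rw [ENNReal.mul_inv_cancel (by simp) (by simp), one_mul, one_mul]
            gcongr
        _ = a0 + a1 + η := by rw [mul_one]
    calc t + b0 + c0 + (t + b1 + c1) = 2 * t + (b0 + c0 + b1 + c1) := by ring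
      _ ≤ a0 + a1 + η + (b0 + c0 + b1 + c1) := by gcongr
      _ = a0 + b0 + c0 + (a1 + b1 + c1) + η := by ring
      _ < a0 + b0 + c0 + (a1 + b1 + c1) + ε := ENNReal.add_lt_add_left hfin2 hηε

end Crest.Agent.R130
end

-- ▼ part R130/Push
section

/-!
# R130 (S0175), L2: the pushforward of `q² dx` under a smooth pair has a density with smooth
square root.
-/

set_option autoImplicit false

open MeasureTheory Metric Set
open scoped ENNReal ContDiff Topology
open Crest.AnalysisR.OT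

namespace Crest.Agent.R130

/-- **L2** (pushforward has a density with smooth square root). -/
theorem push_density {E : Type*} [NormedAddCommGroup E] [NormedSpace ℝ E]
    [FiniteDimensional ℝ E] [MeasureSpace E] [BorelSpace E]
    [(volume : Measure E).IsAddHaarMeasure] (U : Set E) (Y X : E → E) (h : SmoothPair U Y X)
    (q : E → ℝ) (hq0 : ∀ x, 0 ≤ q x) (hq : ContDiff ℝ ∞ q) (hqc : HasCompactSupport q)
    (hqU : tsupport q ⊆ U) :
    ∃ g : E → ℝ, (∀ x, 0 ≤ g x) ∧ ContDiff ℝ ∞ g ∧ HasCompactSupport g ∧ tsupport g ⊆ Y '' U ∧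
      (measOfDensity fun x => q x ^ 2).map Y = measOfDensity fun x => g x ^ 2 := by
  classical
  have : CompleteSpace E := FiniteDimensional.complete ℝ E
  set V : Set E := Y '' U with hV
  have hVo : IsOpen V := h.isOpen_target
  have hYX : ∀ y ∈ V, Y (X y) = y := by
    rintro _ ⟨x, hx, rfl⟩
    rw [h.left_inv x hx]
  have hXU : ∀ y ∈ V, X y ∈ U := by
    rintro _ ⟨x, hx, rfl⟩
    rw [h.left_inv x hx]; exact hx
  -- derivative of X on V
  have hXd : ∀ y ∈ V, DifferentiableAt ℝ X y := fun y hy =>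
    (h.smooth_symm.contDiffAt (hVo.mem_nhds hy)).differentiableAt (by simp)
  have hYd : ∀ x ∈ U, DifferentiableAt ℝ Y x := fun x hx =>
    (h.smooth.contDiffAt (h.isOpen_source.mem_nhds hx)).differentiableAt (by simp)
  have hdet : ∀ y ∈ V, (fderiv ℝ X y).det ≠ 0 := by
    intro y hy
    have h1 : HasFDerivAt (fun z => Y (X z)) ((fderiv ℝ Y (X y)).comp (fderiv ℝ X y)) y :=
      (hYd _ (hXU y hy)).hasFDerivAt.comp y (hXd y hy).hasFDerivAt
    have h2 : HasFDerivAt (fun z => Y (X z)) (ContinuousLinearMap.id ℝ E) y := by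
      refine (hasFDerivAt_id y).congr_of_eventuallyEq ?_
      filter_upwards [hVo.mem_nhds hy] with z hz
      exact hYX z hz
    have h3 := h1.unique h2
    have h4 : LinearMap.det (((fderiv ℝ Y (X y)).comp (fderiv ℝ X y) : E →L[ℝ] E) : E →ₗ[ℝ] E)
        = 1 := by
      rw [h3]; simp
    have h40 : (((fderiv ℝ Y (X y)).comp (fderiv ℝ X y) : E →L[ℝ] E) : E →ₗ[ℝ] E) =
        ((fderiv ℝ Y (X y) : E →L[ℝ] E) : E →ₗ[ℝ] E) ∘ₗ
          ((fderiv ℝ X y : E →L[ℝ] E) : E →ₗ[ℝ] E) := rfl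
    rw [h40, LinearMap.det_comp] at h4
    intro h0
    have h5 : LinearMap.det ((fderiv ℝ X y : E →L[ℝ] E) : E →ₗ[ℝ] E) = 0 := h0
    rw [h5, mul_zero] at h4
    exact zero_ne_one h4
  -- the function
  set J : E → ℝ := fun y => |(fderiv ℝ X y).det| with hJ
  set g : E → ℝ := fun y => if y ∈ V then q (X y) * Real.sqrt (J y) else 0 with hg
  have hg0 : ∀ y, 0 ≤ g y := by
    intro y
    by_cases hy : y ∈ V
    · simp only [hg, if_pos hy]; exact mul_nonneg (hq0 _) (Real.sqrt_nonneg _)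
    · simp only [hg, if_neg hy]; exact le_rfl
  have hKc : IsCompact (Y '' tsupport q) :=
    hqc.isCompact.image_of_continuousOn (h.smooth.continuousOn.mono hqU)
  have hsupp : Function.support g ⊆ Y '' tsupport q := by
    intro y hy
    by_cases hyV : y ∈ V
    · have h1 : g y = q (X y) * Real.sqrt (J y) := by simp only [hg, if_pos hyV]
      rw [Function.mem_support, h1] at hy
      have h2 : q (X y) ≠ 0 := left_ne_zero_of_mul hy
      exact ⟨X y, subset_tsupport q h2, hYX y hyV⟩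
    · exact absurd (by simp only [hg, if_neg hyV]) hy
  have htsupp : tsupport g ⊆ Y '' tsupport q :=
    closure_minimal hsupp hKc.isClosed
  have hgc : HasCompactSupport g := hKc.of_isClosed_subset (isClosed_tsupport g) htsupp
  have hdetsm : ∀ y ∈ V, ContDiffAt ℝ ∞ (fun z => (fderiv ℝ X z).det) y := by
    intro y hy
    have h1 : ContDiffAt ℝ ∞ (fun z => fderiv ℝ X z) y :=
      (h.smooth_symm.contDiffAt (hVo.mem_nhds hy)).fderiv_right (m := ∞) (by simp)
    -- det as a polynomial in the entries of a matrix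
    let b := Module.finBasis ℝ E
    have h2 : ∀ A : E →L[ℝ] E, A.det = (LinearMap.toMatrix b b (A : E →ₗ[ℝ] E)).det := by
      intro A
      rw [LinearMap.det_toMatrix]
    have h3 : ∀ i j, ContDiffAt ℝ ∞
        (fun z => LinearMap.toMatrix b b ((fderiv ℝ X z : E →L[ℝ] E) : E →ₗ[ℝ] E) i j) y := by
      intro i j
      let L : (E →L[ℝ] E) →ₗ[ℝ] ℝ :=
        { toFun := fun A => LinearMap.toMatrix b b (A : E →ₗ[ℝ] E) i j
          map_add' := by intro A B; simp
          map_smul' := by intro c A; simp }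
      have hL : ContDiff ℝ ∞ (fun A => L A) := (LinearMap.toContinuousLinearMap L).contDiff
      exact hL.contDiffAt.comp y h1
    have h4 : (fun z => (fderiv ℝ X z).det) = fun z =>
        ∑ σ : Equiv.Perm (Fin (Module.finrank ℝ E)), ((Equiv.Perm.sign σ : ℤ) : ℝ) *
          ∏ i, LinearMap.toMatrix b b ((fderiv ℝ X z : E →L[ℝ] E) : E →ₗ[ℝ] E) (σ i) i := by
      funext z
      rw [h2, Matrix.det_apply']
    rw [h4]
    refine ContDiffAt.sum fun σ _ => ?_
    exact contDiffAt_const.mul (contDiffAt_prod fun i _ => h3 _ _)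
  have hgs : ContDiff ℝ ∞ g := by
    rw [contDiff_iff_contDiffAt]
    intro y
    by_cases hy : y ∈ V
    · have h1 : ContDiffAt ℝ ∞ (fun z => q (X z) * Real.sqrt (J z)) y := by
        have hXs : ContDiffAt ℝ ∞ X y := h.smooth_symm.contDiffAt (hVo.mem_nhds hy)
        have hJs : ContDiffAt ℝ ∞ J y := (hdetsm y hy).abs (hdet y hy)
        refine (hq.contDiffAt.comp y hXs).mul ?_
        exact hJs.sqrt (abs_ne_zero.mpr (hdet y hy))
      refine h1.congr_of_eventuallyEq ?_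
      filter_upwards [hVo.mem_nhds hy] with z hz
      simp only [hg, if_pos hz]
    · have hy' : y ∉ Y '' tsupport q := fun hyy => hy (image_mono hqU hyy)
      have h1 : ContDiffAt ℝ ∞ (fun _ : E => (0 : ℝ)) y := contDiffAt_const
      refine h1.congr_of_eventuallyEq ?_
      filter_upwards [hKc.isClosed.isOpen_compl.mem_nhds hy'] with z hz
      by_contra hne
      exact hz (hsupp hne)
  refine ⟨g, hg0, hgs, hgc, htsupp.trans (image_mono hqU), ?_⟩
  -- the measure identity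
  have hqm : Measurable fun x => ENNReal.ofReal (q x ^ 2) :=
    (hq.continuous.pow 2).measurable.ennreal_ofReal
  ext B hB
  rw [Measure.map_apply h.measurable hB]
  unfold measOfDensity
  rw [withDensity_apply _ (h.measurable hB), withDensity_apply _ hB]
  have hVm : MeasurableSet V := hVo.measurableSet
  have hUm : MeasurableSet U := h.isOpen_source.measurableSet
  -- left side: restrict to U
  have hL : ∫⁻ x in Y ⁻¹' B, ENNReal.ofReal (q x ^ 2) = ∫⁻ x in X '' (B ∩ V),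
      ENNReal.ofReal (q x ^ 2) := by
    have himg : X '' (B ∩ V) = Y ⁻¹' B ∩ U := by
      ext x
      constructor
      · rintro ⟨y, ⟨hyB, hyV⟩, rfl⟩
        exact ⟨by rw [mem_preimage, hYX y hyV]; exact hyB, hXU y hyV⟩
      · rintro ⟨hxB, hxU⟩
        exact ⟨Y x, ⟨hxB, mem_image_of_mem Y hxU⟩, h.left_inv x hxU⟩
    rw [himg, ← lintegral_indicator (h.measurable hB),
      ← lintegral_indicator ((h.measurable hB).inter hUm)]
    refine lintegral_congr fun x => ?_
    by_cases hxU : x ∈ U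
    · by_cases hxB : x ∈ Y ⁻¹' B
      · rw [indicator_of_mem hxB, indicator_of_mem (show x ∈ Y ⁻¹' B ∩ U from ⟨hxB, hxU⟩)]
      · rw [indicator_of_notMem hxB,
          indicator_of_notMem (s := Y ⁻¹' B ∩ U) (a := x) (fun hh => hxB hh.1)]
    · have hq0' : q x = 0 := by
        by_contra hne
        exact hxU (hqU (subset_tsupport q hne))
      rw [indicator_of_notMem (s := Y ⁻¹' B ∩ U) (a := x) (fun hh => hxU hh.2)]
      by_cases hxB : x ∈ Y ⁻¹' B
      · rw [indicator_of_mem hxB, hq0']; simp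
      · rw [indicator_of_notMem hxB]
  have hR : ∫⁻ y in B, ENNReal.ofReal (g y ^ 2) = ∫⁻ y in B ∩ V, ENNReal.ofReal (g y ^ 2) := by
    rw [← lintegral_indicator hB, ← lintegral_indicator (hB.inter hVm)]
    refine lintegral_congr fun y => ?_
    by_cases hyV : y ∈ V
    · by_cases hyB : y ∈ B
      · rw [indicator_of_mem hyB, indicator_of_mem (show y ∈ B ∩ V from ⟨hyB, hyV⟩)]
      · rw [indicator_of_notMem hyB,
          indicator_of_notMem (s := B ∩ V) (a := y) (fun hh => hyB hh.1)]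
    · rw [indicator_of_notMem (s := B ∩ V) (a := y) (fun hh => hyV hh.2)]
      by_cases hyB : y ∈ B
      · rw [indicator_of_mem hyB]
        simp only [hg, if_neg hyV]; simp
      · rw [indicator_of_notMem hyB]
  rw [hL, hR]
  rw [lintegral_image_eq_lintegral_abs_det_fderiv_mul (μ := (volume : Measure E))
    (f := X) (f' := fun y => fderiv ℝ X y) (hB.inter hVm)
    (fun y hy => (hXd y hy.2).hasFDerivAt.hasFDerivWithinAt)
    (fun y hy z hz hyz => by rw [← hYX y hy.2, ← hYX z hz.2, hyz])]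
  refine setLIntegral_congr_fun (hB.inter hVm) ?_
  intro y hy
  have h1 : g y = q (X y) * Real.sqrt (J y) := by simp only [hg, if_pos hy.2]
  show ENNReal.ofReal |(fderiv ℝ X y).det| * ENNReal.ofReal (q (X y) ^ 2) =
    ENNReal.ofReal (g y ^ 2)
  rw [h1, mul_pow, Real.sq_sqrt (abs_nonneg _), ← ENNReal.ofReal_mul (abs_nonneg _), mul_comm]

end Crest.Agent.R130
end

-- ▼ part R130/Doubling
section

/-!
# The two-to-one doubling map (L3 of the R130 blueprint)
-/

set_option autoImplicit false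

open MeasureTheory Metric Set Filter Topology
open scoped ENNReal

namespace Crest.Agent.R130

/-- The fair coin on `Bool`. -/
noncomputable def coin : Measure Bool :=
  (2⁻¹ : ℝ≥0∞) • Measure.dirac true + (2⁻¹ : ℝ≥0∞) • Measure.dirac false

theorem coin_true : coin {true} = 2⁻¹ := by simp [coin]

theorem coin_false : coin {false} = 2⁻¹ := by simp [coin]

instance : IsProbabilityMeasure coin :=
  ⟨by simp [coin, ENNReal.inv_two_add_inv_two]⟩

/-- **L3**: a two-to-one map, `ε`-close to the identity, mapping both halves `S`, `Sᶜ` of the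
measure `m` onto half of `m`. -/
theorem doubling {E : Type*} [NormedAddCommGroup E] [InnerProductSpace ℝ E]
    [FiniteDimensional ℝ E] [Nontrivial E] [MeasureSpace E] [BorelSpace E]
    [(volume : Measure E).IsAddHaarMeasure] (m : Measure E) [IsFiniteMeasure m]
    (hm : m ≪ volume) (ε : ℝ) (hε : 0 < ε) :
    ∃ D : E → E, Measurable D ∧ ∃ S : Set E, MeasurableSet S ∧
      (m.restrict S).map D = (2⁻¹ : ℝ≥0∞) • m ∧ (m.restrict Sᶜ).map D = (2⁻¹ : ℝ≥0∞) • m ∧
      ∀ᵐ x ∂m, dist (D x) x ≤ ε := by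
  have hcomplete : CompleteSpace E := FiniteDimensional.complete ℝ E
  have hproper : ProperSpace E := FiniteDimensional.proper ℝ E
  have hna : NullSingletonClass m := by
    constructor
    intro x
    exact hm (measure_singleton x)
  -- the labelling by small balls
  have hcov : ∀ x : E, ∃ n, x ∈ ball (TopologicalSpace.denseSeq E n) (ε / 2) := by
    intro x
    obtain ⟨y, hy, hxy⟩ := Metric.dense_iff.1 (TopologicalSpace.denseRange_denseSeq E) x (ε / 2)
      (by positivity)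
    obtain ⟨n, rfl⟩ := hxy
    exact ⟨n, by rw [mem_ball_comm]; exact hy⟩
  classical
  set idx : E → ℕ := fun x => Nat.find (hcov x) with hidx
  have hidxm : Measurable idx := measurable_find hcov fun n => measurableSet_ball
  have hidxd : ∀ x y, idx x = idx y → dist x y ≤ ε := by
    intro x y hxy
    have h1 : x ∈ ball (TopologicalSpace.denseSeq E (idx x)) (ε / 2) := Nat.find_spec (hcov x)
    have h2 : y ∈ ball (TopologicalSpace.denseSeq E (idx y)) (ε / 2) := Nat.find_spec (hcov y)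
    rw [hxy] at h1
    rw [mem_ball] at h1 h2
    have := dist_triangle_right x y (TopologicalSpace.denseSeq E (idx y))
    linarith
  obtain ⟨T, hT, hTm, hTi⟩ := exists_map_eq_cell m (m.prod coin) idx (idx ∘ Prod.fst) hidxm
    (hidxm.comp measurable_fst) (by
      intro n
      have : (idx ∘ Prod.fst : E × Bool → ℕ) ⁻¹' {n} = (idx ⁻¹' {n}) ×ˢ univ := by
        ext p; simp
      rw [this, Measure.prod_prod, measure_univ, mul_one])
  have hS : MeasurableSet (T ⁻¹' (univ ×ˢ {true})) :=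
    hT (MeasurableSet.univ.prod (measurableSet_singleton _))
  have hDm : Measurable fun x => (T x).1 := measurable_fst.comp hT
  refine ⟨fun x => (T x).1, hDm, T ⁻¹' (univ ×ˢ {true}), hS, ?_, ?_, ?_⟩
  · ext V hV
    rw [Measure.map_apply hDm hV,
      Measure.restrict_apply (hDm hV), Measure.smul_apply, smul_eq_mul]
    have h1 : (fun x => (T x).1) ⁻¹' V ∩ T ⁻¹' (univ ×ˢ {true}) = T ⁻¹' (V ×ˢ {true}) := by
      ext x; simp
    rw [h1, ← Measure.map_apply hT (hV.prod (measurableSet_singleton _)), hTm, Measure.prod_prod,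
      coin_true, mul_comm]
  · ext V hV
    rw [Measure.map_apply hDm hV,
      Measure.restrict_apply (hDm hV), Measure.smul_apply, smul_eq_mul]
    have h1 : (fun x => (T x).1) ⁻¹' V ∩ (T ⁻¹' (univ ×ˢ {true}))ᶜ = T ⁻¹' (V ×ˢ {false}) := by
      ext x; simp
    rw [h1, ← Measure.map_apply hT (hV.prod (measurableSet_singleton _)), hTm, Measure.prod_prod,
      coin_false, mul_comm]
  · filter_upwards [hTi] with x hx
    exact hidxd _ _ hx

end Crest.Agent.R130
end

-- ▼ part R130/Assembly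
section

/-!
# R130 (S0175): assembly of the final theorem from the certificate
-/

set_option autoImplicit false

open MeasureTheory Metric Set
open scoped ENNReal ContDiff Topology
open Crest.AnalysisR.OT

namespace Crest.Agent.R130

namespace Assembly

theorem pairCost_comm {E : Type*} [NormedAddCommGroup E] (s : ℝ) (x y : E) :
    pairCost s x y = pairCost s y x := by
  simp only [pairCost, norm_sub_rev x y]

theorem tripleCost_rot {E : Type*} [NormedAddCommGroup E] (s : ℝ) (x y z : E) :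
    tripleCost s (y, z, x) = tripleCost s (x, y, z) := by
  simp only [tripleCost]
  rw [pairCost_comm s y x, pairCost_comm s z x]
  ring

theorem tripleCost_rot' {E : Type*} [NormedAddCommGroup E] (s : ℝ) (x y z : E) :
    tripleCost s (z, x, y) = tripleCost s (x, y, z) := by
  rw [← tripleCost_rot s x y z, ← tripleCost_rot s y z x]

theorem measurable_tripleCost {E : Type*} [NormedAddCommGroup E] [MeasurableSpace E]
    [BorelSpace E] [SecondCountableTopology E] (s : ℝ) :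
    Measurable (tripleCost s : E × E × E → ℝ≥0∞) := by
  have h1 : Measurable (fun p : E × E => pairCost s p.1 p.2) := by
    unfold pairCost
    refine Measurable.pow_const ?_ _
    fun_prop
  have h2 : (tripleCost s : E × E × E → ℝ≥0∞) = fun p =>
      pairCost s p.1 p.2.1 + pairCost s p.1 p.2.2 + pairCost s p.2.1 p.2.2 := rfl
  rw [h2]
  have e1 : Measurable (fun p : E × E × E => pairCost s p.1 p.2.1) :=
    h1.comp (g := fun p : E × E => pairCost s p.1 p.2)
      (f := fun p : E × E × E => (p.1, p.2.1)) (by fun_prop)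
  have e2 : Measurable (fun p : E × E × E => pairCost s p.1 p.2.2) :=
    h1.comp (g := fun p : E × E => pairCost s p.1 p.2)
      (f := fun p : E × E × E => (p.1, p.2.2)) (by fun_prop)
  have e3 : Measurable (fun p : E × E × E => pairCost s p.2.1 p.2.2) :=
    h1.comp (g := fun p : E × E => pairCost s p.1 p.2)
      (f := fun p : E × E × E => (p.2.1, p.2.2)) (by fun_prop)
  exact (e1.add e2).add e3

theorem pairCost_eq {E : Type*} [NormedAddCommGroup E] (s : ℝ) {x y : E} (h : x ≠ y) :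
    pairCost s x y = ENNReal.ofReal (‖x - y‖ ^ (-s)) := by
  rw [pairCost, ENNReal.ofReal_rpow_of_pos (norm_pos_iff.mpr (sub_ne_zero.mpr h))]

theorem tripleCost_eq {E : Type*} [NormedAddCommGroup E] (s : ℝ) {x y z : E} (h1 : x ≠ y)
    (h2 : x ≠ z) (h3 : y ≠ z) :
    tripleCost s (x, y, z) = ENNReal.ofReal (c s x y z) := by
  simp only [tripleCost, pairCost_eq s h1, pairCost_eq s h2, pairCost_eq s h3]
  rw [← ENNReal.ofReal_add (by positivity) (by positivity),
    ← ENNReal.ofReal_add (by positivity) (by positivity)]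
  rfl

/-- Uniform continuity of the cost along the sheets. -/
theorem cost_unif {E : Type*} [NormedAddCommGroup E] (s : ℝ) {K : Set E} (hK : IsCompact K)
    {Y W : E → E} (hY : ContinuousOn Y K) (hW : ContinuousOn W K)
    (h1 : ∀ x ∈ K, ∀ x' ∈ K, x ≠ Y x') (h2 : ∀ x ∈ K, ∀ x' ∈ K, x ≠ W x')
    (h3 : ∀ x ∈ K, Y x ≠ W x) (η : ℝ≥0∞) (hη : 0 < η) :
    ∃ δ : ℝ, 0 < δ ∧ ∀ x ∈ K, ∀ x' ∈ K, dist x' x ≤ δ →
      tripleCost s (x, Y x', W x') ≤ tripleCost s (x', Y x', W x') + η := by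
  obtain ⟨η', hη'0, hη'⟩ := ENNReal.lt_iff_exists_nnreal_btwn.mp hη
  have hη'0' : (0 : ℝ) < (η' : ℝ) := by
    have : (0 : ℝ≥0∞) < (η' : ℝ≥0∞) := hη'0
    exact_mod_cast this
  have hcont : ContinuousOn (fun p : E × E => c s p.1 (Y p.2) (W p.2)) (K ×ˢ K) := by
    have hY' : ContinuousOn (fun p : E × E => Y p.2) (K ×ˢ K) :=
      hY.comp continuous_snd.continuousOn (fun p hp => hp.2)
    have hW' : ContinuousOn (fun p : E × E => W p.2) (K ×ˢ K) :=
      hW.comp continuous_snd.continuousOn (fun p hp => hp.2)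
    have hfst : ContinuousOn (fun p : E × E => p.1) (K ×ˢ K) := continuous_fst.continuousOn
    unfold c
    refine ContinuousOn.add (ContinuousOn.add ?_ ?_) ?_
    · refine ContinuousOn.rpow_const (hfst.sub hY').norm ?_
      intro p hp
      exact Or.inl (norm_ne_zero_iff.mpr (sub_ne_zero.mpr (h1 _ hp.1 _ hp.2)))
    · refine ContinuousOn.rpow_const (hfst.sub hW').norm ?_
      intro p hp
      exact Or.inl (norm_ne_zero_iff.mpr (sub_ne_zero.mpr (h2 _ hp.1 _ hp.2)))
    · refine ContinuousOn.rpow_const (hY'.sub hW').norm ?_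
      intro p hp
      exact Or.inl (norm_ne_zero_iff.mpr (sub_ne_zero.mpr (h3 _ hp.2)))
  have hunif := (hK.prod hK).uniformContinuousOn_of_continuous hcont
  rw [Metric.uniformContinuousOn_iff_le] at hunif
  obtain ⟨δ, hδ0, hδ⟩ := hunif η' hη'0'
  refine ⟨δ, hδ0, fun x hx x' hx' hd => ?_⟩
  have h := hδ (x, x') ⟨hx, hx'⟩ (x', x') ⟨hx', hx'⟩ (by
    rw [Prod.dist_eq]
    simp only [dist_self]
    rw [max_le_iff]
    exact ⟨by rw [dist_comm]; exact hd, hδ0.le⟩)
  rw [Real.dist_eq] at h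
  have h4 : c s x (Y x') (W x') ≤ c s x' (Y x') (W x') + η' := by
    have := abs_le.mp h
    linarith [this.2]
  rw [tripleCost_eq s (h1 x hx x' hx') (h2 x hx x' hx') (h3 x' hx'),
    tripleCost_eq s (h1 x' hx' x' hx') (h2 x' hx' x' hx') (h3 x' hx')]
  calc ENNReal.ofReal (c s x (Y x') (W x'))
      ≤ ENNReal.ofReal (c s x' (Y x') (W x') + η') := ENNReal.ofReal_le_ofReal h4
    _ ≤ ENNReal.ofReal (c s x' (Y x') (W x')) + ENNReal.ofReal η' := ENNReal.ofReal_add_le
    _ ≤ ENNReal.ofReal (c s x' (Y x') (W x')) + η := by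
        rw [ENNReal.ofReal_coe_nnreal]
        gcongr

end Assembly

/-- The certificate, packaged as a proposition. -/
def Certificate (E : Type*) [NormedAddCommGroup E] [NormedSpace ℝ E] [MeasurableSpace E]
    (s : ℝ) : Prop :=
    ∃ r > 0, ∃ Y X W Z : Fin 2 → E → E,
    ∃ Φ : E → ℝ≥0∞, ∃ M : ℝ≥0∞, M < ⊤ ∧ (∀ x, Φ x ≤ M) ∧ Measurable Φ ∧
      (∀ i, SmoothPair (ball 0 r) (Y i) (X i)) ∧ (∀ i, SmoothPair (ball 0 r) (W i) (Z i)) ∧
      -- pairwise disjointness of the five clusters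
      (∀ i, Disjoint (ball 0 r) (Y i '' ball 0 r)) ∧ (∀ i, Disjoint (ball 0 r) (W i '' ball 0 r)) ∧
      (∀ i j, Disjoint (Y i '' ball 0 r) (W j '' ball 0 r)) ∧
      Disjoint (Y 0 '' ball 0 r) (Y 1 '' ball 0 r) ∧ Disjoint (W 0 '' ball 0 r) (W 1 '' ball 0 r) ∧
      -- dual feasibility
      (∀ x ∈ clusters (ball 0 r) Y W, ∀ y ∈ clusters (ball 0 r) Y W,
        ∀ z ∈ clusters (ball 0 r) Y W,
        Φ x + Φ y + Φ z ≤ tripleCost s (x, y, z)) ∧
      -- complementary slackness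
      (∀ x ∈ ball 0 r, ∀ y ∈ clusters (ball 0 r) Y W, ∀ z ∈ clusters (ball 0 r) Y W,
        Φ x + Φ y + Φ z = tripleCost s (x, y, z) → ∃ i, y = Y i x ∨ y = W i x) ∧
      (∀ x ∈ ball 0 r, ∀ i, Φ x + Φ (Y i x) + Φ (W i x) = tripleCost s (x, Y i x, W i x))

theorem hasCompactSupport_sq {E : Type*} [TopologicalSpace E] {f : E → ℝ}
    (hf : HasCompactSupport f) : HasCompactSupport (fun x => f x ^ 2) := by
  have h := hf.mul_left (f := f)
  have e : (fun x => f x ^ 2) = f * f := by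
    funext x
    rw [Pi.mul_apply, sq]
  rw [e]
  exact h

theorem integrable_sq {E : Type*} [NormedAddCommGroup E] [MeasureSpace E] [BorelSpace E]
    [IsFiniteMeasureOnCompacts (volume : Measure E)] {f : E → ℝ}
    (hf : Continuous f) (hfs : HasCompactSupport f) : Integrable (fun x => f x ^ 2) := by
  have h : Continuous (fun x => f x ^ 2) := hf.pow 2
  exact h.integrable_of_hasCompactSupport (hasCompactSupport_sq hfs)

/-- A normalised bump function. -/
theorem exists_bump (E : Type*) [NormedAddCommGroup E] [InnerProductSpace ℝ E]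
    [FiniteDimensional ℝ E] [MeasureSpace E] [BorelSpace E]
    [(volume : Measure E).IsAddHaarMeasure] (r : ℝ) (hr : 0 < r) :
    ∃ q : E → ℝ, (∀ x, 0 ≤ q x) ∧ ContDiff ℝ ∞ q ∧ HasCompactSupport q ∧
      tsupport q ⊆ closedBall 0 (r / 2) ∧ ∫ x, q x ^ 2 = 1 / 6 := by
  let φ : ContDiffBump (0 : E) := ⟨r / 4, r / 2, by positivity, by linarith⟩
  have hφc : ContDiff ℝ ∞ (φ : E → ℝ) := φ.contDiff
  have hφsq_int : Integrable (fun x => φ x ^ 2) :=
    integrable_sq hφc.continuous φ.hasCompactSupport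
  have hI : 0 < ∫ x, φ x ^ 2 := by
    rw [integral_pos_iff_support_of_nonneg (fun x => by positivity) hφsq_int]
    have hsub : ball (0 : E) (r / 4) ⊆ Function.support (fun x => φ x ^ 2) := by
      intro x hx
      have : φ x = 1 := φ.one_of_mem_closedBall (ball_subset_closedBall hx)
      simp [this]
    exact lt_of_lt_of_le (measure_ball_pos volume _ (by positivity)) (measure_mono hsub)
  set I := ∫ x, φ x ^ 2 with hIdef
  refine ⟨fun x => Real.sqrt (1 / (6 * I)) * φ x,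
    fun x => mul_nonneg (Real.sqrt_nonneg _) φ.nonneg, contDiff_const.mul hφc,
    φ.hasCompactSupport.mul_left, ?_, ?_⟩
  · have h1 : tsupport (φ : E → ℝ) = closedBall 0 (r / 2) := φ.tsupport_eq
    rw [← h1]
    exact tsupport_mul_subset_right
  · have : ∀ x, (Real.sqrt (1 / (6 * I)) * φ x) ^ 2 = (1 / (6 * I)) * φ x ^ 2 := by
      intro x
      rw [mul_pow, Real.sq_sqrt (by positivity)]
    simp only [this]
    rw [integral_const_mul, ← hIdef]
    field_simp

open Assembly in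
theorem main_of_certificate (E : Type*) [NormedAddCommGroup E] [InnerProductSpace ℝ E]
    [FiniteDimensional ℝ E] [Nontrivial E] [MeasureSpace E] [BorelSpace E]
    [(volume : Measure E).IsAddHaarMeasure] (s : ℝ) (hcert : Certificate E s) :
    ∃ ρ : E → ℝ, (∀ x, 0 ≤ ρ x) ∧ ContDiff ℝ ∞ ρ ∧ HasCompactSupport ρ ∧
      ContDiff ℝ ∞ (fun x => Real.sqrt (ρ x)) ∧ ∫ x, ρ x = 1 ∧
      ∃ π₀ : Measure (E × E × E),
        IsCoupling₃ (measOfDensity ρ) π₀ ∧ ∫⁻ p, tripleCost s p ∂π₀ < ⊤ ∧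
        (∀ π : Measure (E × E × E), IsCoupling₃ (measOfDensity ρ) π →
          ∫⁻ p, tripleCost s p ∂π₀ ≤ ∫⁻ p, tripleCost s p ∂π) ∧
        (∀ T₂ T₃ : E → E, Measurable T₂ → Measurable T₃ →
          (measOfDensity ρ).map T₂ = measOfDensity ρ → (measOfDensity ρ).map T₃ = measOfDensity ρ →
          ∫⁻ p, tripleCost s p ∂π₀ < ∫⁻ x, tripleCost s (x, T₂ x, T₃ x) ∂(measOfDensity ρ)) ∧
        (∀ ε : ℝ≥0∞, 0 < ε → ∃ T₂ T₃ : E → E, Measurable T₂ ∧ Measurable T₃ ∧
          (measOfDensity ρ).map T₂ = measOfDensity ρ ∧ (measOfDensity ρ).map T₃ = measOfDensity ρ ∧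
          ∫⁻ x, tripleCost s (x, T₂ x, T₃ x) ∂(measOfDensity ρ) < ∫⁻ p, tripleCost s p ∂π₀ + ε) := by
  classical
  obtain ⟨r, hr, Y, X, W, Z, Φ, M, hM, hΦM, hΦm, hYX, hWZ, d1, d2, d3, d4, d5, hdual, hslack,
    heq⟩ := hcert
  obtain ⟨q, hq0, hqc, hqcs, hqK, hqint⟩ := exists_bump E r hr
  have hKU : closedBall (0 : E) (r / 2) ⊆ ball 0 r := closedBall_subset_ball (by linarith)
  have hqU : tsupport q ⊆ ball 0 r := hqK.trans hKU
  set m : Measure E := measOfDensity fun x => q x ^ 2 with hmdef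
  have hq2m : Measurable (fun x => ENNReal.ofReal (q x ^ 2)) :=
    (hqc.continuous.measurable.pow_const 2).ennreal_ofReal
  have hq2int : Integrable (fun x => q x ^ 2) := integrable_sq hqc.continuous hqcs
  have hmuniv : m univ = ENNReal.ofReal (1 / 6) := by
    rw [hmdef, measOfDensity, withDensity_apply _ MeasurableSet.univ, Measure.restrict_univ,
      ← ofReal_integral_eq_lintegral_ofReal hq2int (Filter.Eventually.of_forall fun x => by positivity),
      hqint]
  have hmfin : IsFiniteMeasure m := ⟨by rw [hmuniv]; exact ENNReal.ofReal_lt_top⟩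
  have hm0 : m ≠ 0 := by
    intro h
    rw [h, Measure.coe_zero, Pi.zero_apply] at hmuniv
    exact absurd hmuniv.symm (ENNReal.ofReal_pos.mpr (by norm_num)).ne'
  have hmK : ∀ᵐ x ∂m, x ∈ closedBall (0 : E) (r / 2) := by
    rw [hmdef, measOfDensity, ae_withDensity_iff hq2m]
    refine Filter.Eventually.of_forall fun x hx => ?_
    by_contra hxK
    apply hx
    have : q x = 0 := by
      by_contra hne
      exact hxK (hqK (subset_tsupport _ hne))
    simp [this]
  have hmU : ∀ᵐ x ∂m, x ∈ ball (0 : E) r := hmK.mono fun x hx => hKU hx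
  have hmac : m ≪ volume := withDensity_absolutelyContinuous _ _
  -- measurability
  have hY : ∀ i, Measurable (Y i) := fun i => (hYX i).measurable
  have hX : ∀ i, Measurable (X i) := fun i => (hYX i).measurable_symm
  have hW : ∀ i, Measurable (W i) := fun i => (hWZ i).measurable
  have hZ : ∀ i, Measurable (Z i) := fun i => (hWZ i).measurable_symm
  have hYU : ∀ i, MeasurableSet (Y i '' ball 0 r) := fun i => (hYX i).isOpen_target.measurableSet
  have hWU : ∀ i, MeasurableSet (W i '' ball 0 r) := fun i => (hWZ i).isOpen_target.measurableSet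
  -- pushforward densities
  have hpY : ∀ i, ∃ g : E → ℝ, (∀ x, 0 ≤ g x) ∧ ContDiff ℝ ∞ g ∧ HasCompactSupport g ∧
      tsupport g ⊆ Y i '' ball 0 r ∧
      m.map (Y i) = measOfDensity fun x => g x ^ 2 := fun i =>
    push_density (ball 0 r) (Y i) (X i) (hYX i) q hq0 hqc hqcs hqU
  have hpW : ∀ i, ∃ g : E → ℝ, (∀ x, 0 ≤ g x) ∧ ContDiff ℝ ∞ g ∧ HasCompactSupport g ∧
      tsupport g ⊆ W i '' ball 0 r ∧
      m.map (W i) = measOfDensity fun x => g x ^ 2 := fun i =>
    push_density (ball 0 r) (W i) (Z i) (hWZ i) q hq0 hqc hqcs hqU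
  choose gY gY0 gYc gYs gYU gYm using hpY
  choose gW gW0 gWc gWs gWU gWm using hpW
  let G : E → ℝ := fun x => Real.sqrt 2 * q x + (gY 0 x + gY 1 x) + (gW 0 x + gW 1 x)
  have hG0 : ∀ x, 0 ≤ G x := by
    intro x
    have h1 := hq0 x
    have h2 := gY0 0 x
    have h3 := gY0 1 x
    have h4 := gW0 0 x
    have h5 := gW0 1 x
    positivity
  have hGc : ContDiff ℝ ∞ G :=
    ((contDiff_const.mul hqc).add ((gYc 0).add (gYc 1))).add ((gWc 0).add (gWc 1))
  have hGs : HasCompactSupport G :=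
    ((hqcs.mul_left (f' := q) (f := fun _ => Real.sqrt 2)).add ((gYs 0).add (gYs 1))).add
      ((gWs 0).add (gWs 1))
  -- products vanish
  have prod0 : ∀ (f g : E → ℝ) (A B : Set E), tsupport f ⊆ A → tsupport g ⊆ B → Disjoint A B →
      ∀ x, f x * g x = 0 := by
    intro f g A B hf hg hAB x
    by_contra hne
    have h1 : f x ≠ 0 := left_ne_zero_of_mul hne
    have h2 : g x ≠ 0 := right_ne_zero_of_mul hne
    exact Set.disjoint_left.mp hAB (hf (subset_tsupport _ h1)) (hg (subset_tsupport _ h2))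
  have hGsq : ∀ x, G x ^ 2 = 2 * q x ^ 2 + (gY 0 x ^ 2 + gY 1 x ^ 2) +
      (gW 0 x ^ 2 + gW 1 x ^ 2) := by
    intro x
    have e2 : Real.sqrt 2 ^ 2 = 2 := Real.sq_sqrt (by norm_num)
    have p1 := prod0 _ _ _ _ hqU (gYU 0) (d1 0) x
    have p2 := prod0 _ _ _ _ hqU (gYU 1) (d1 1) x
    have p3 := prod0 _ _ _ _ hqU (gWU 0) (d2 0) x
    have p4 := prod0 _ _ _ _ hqU (gWU 1) (d2 1) x
    have p5 := prod0 _ _ _ _ (gYU 0) (gYU 1) d4 x
    have p6 := prod0 _ _ _ _ (gWU 0) (gWU 1) d5 x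
    have p7 := prod0 _ _ _ _ (gYU 0) (gWU 0) (d3 0 0) x
    have p8 := prod0 _ _ _ _ (gYU 0) (gWU 1) (d3 0 1) x
    have p9 := prod0 _ _ _ _ (gYU 1) (gWU 0) (d3 1 0) x
    have p10 := prod0 _ _ _ _ (gYU 1) (gWU 1) (d3 1 1) x
    simp only [G]
    linear_combination (q x ^ 2) * e2 + 2 * Real.sqrt 2 * (p1 + p2 + p3 + p4) +
      2 * (p5 + p6 + p7 + p8 + p9 + p10)
  -- the measure
  have meas_add : ∀ (f g : E → ℝ), Measurable f → (∀ x, 0 ≤ f x) → (∀ x, 0 ≤ g x) →
      measOfDensity (fun x => f x + g x) = measOfDensity f + measOfDensity g := by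
    intro f g hf hf0 hg0
    simp only [measOfDensity]
    have h1 : (fun x => ENNReal.ofReal (f x + g x)) =
        (fun x => ENNReal.ofReal (f x)) + fun x => ENNReal.ofReal (g x) := by
      funext x
      rw [Pi.add_apply, ENNReal.ofReal_add (hf0 x) (hg0 x)]
    rw [h1, withDensity_add_left hf.ennreal_ofReal]
  have hμ : measOfDensity (fun x => G x ^ 2) = mu5 m Y W := by
    have mq : Measurable (fun x => q x ^ 2) := hqc.continuous.measurable.pow_const 2
    have mY : ∀ i, Measurable (fun x => gY i x ^ 2) := fun i =>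
      (gYc i).continuous.measurable.pow_const 2
    have mW : ∀ i, Measurable (fun x => gW i x ^ 2) := fun i =>
      (gWc i).continuous.measurable.pow_const 2
    simp only [hGsq]
    have mq2 : Measurable (fun x => 2 * q x ^ 2) := mq.const_mul 2
    have mqY : Measurable (fun x => 2 * q x ^ 2 + (gY 0 x ^ 2 + gY 1 x ^ 2)) :=
      mq2.add ((mY 0).add (mY 1))
    rw [meas_add (fun x => 2 * q x ^ 2 + (gY 0 x ^ 2 + gY 1 x ^ 2))
      (fun x => gW 0 x ^ 2 + gW 1 x ^ 2) mqY (fun x => by positivity) (fun x => by positivity),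
      meas_add (fun x => 2 * q x ^ 2) (fun x => gY 0 x ^ 2 + gY 1 x ^ 2) mq2
        (fun x => by positivity) (fun x => by positivity),
      meas_add (fun x => gY 0 x ^ 2) (fun x => gY 1 x ^ 2) (mY 0) (fun x => by positivity)
        (fun x => by positivity),
      meas_add (fun x => gW 0 x ^ 2) (fun x => gW 1 x ^ 2) (mW 0) (fun x => by positivity)
        (fun x => by positivity)]
    rw [← gYm 0, ← gYm 1, ← gWm 0, ← gWm 1]
    simp only [mu5, Fin.sum_univ_two]
    congr 2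
    rw [hmdef]
    simp only [measOfDensity]
    rw [← withDensity_smul _ hq2m]
    congr 1
    funext x
    rw [Pi.smul_apply, smul_eq_mul, ENNReal.ofReal_mul (by norm_num)]
    simp
  have hμuniv : (mu5 m Y W) univ = 1 := by
    rw [mu5_apply hY hW MeasurableSet.univ]
    simp only [preimage_univ, hmuniv, Fin.sum_univ_two]
    have : (2 : ℝ≥0∞) = ENNReal.ofReal 2 := by simp
    rw [this, ← ENNReal.ofReal_mul (by norm_num), ← ENNReal.ofReal_add (by norm_num) (by norm_num),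
      ← ENNReal.ofReal_add (by norm_num) (by norm_num),
      ← ENNReal.ofReal_add (by norm_num) (by norm_num)]
    norm_num
  have hint1 : ∫ x, G x ^ 2 = 1 := by
    have hGcont : Continuous (fun x => G x ^ 2) := hGc.continuous.pow 2
    have hGnn : 0 ≤ᵐ[volume] (fun x => G x ^ 2) :=
      Filter.Eventually.of_forall fun x => sq_nonneg (G x)
    rw [integral_eq_lintegral_of_nonneg_ae hGnn hGcont.aestronglyMeasurable]
    have : ∫⁻ x, ENNReal.ofReal (G x ^ 2) = 1 := by
      have h1 := hμuniv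
      rw [← hμ, measOfDensity, withDensity_apply _ MeasurableSet.univ, Measure.restrict_univ] at h1
      exact h1
    rw [this]
    simp
  -- potentials
  have hΦfin : ∫⁻ x, Φ x ∂(mu5 m Y W) ≠ ⊤ := by
    refine ne_top_of_le_ne_top hM.ne ?_
    calc ∫⁻ x, Φ x ∂(mu5 m Y W) ≤ ∫⁻ _, M ∂(mu5 m Y W) := lintegral_mono hΦM
      _ = M := by rw [lintegral_const, hμuniv, mul_one]
  have hcostm : Measurable (tripleCost s : E × E × E → ℝ≥0∞) := measurable_tripleCost s
  have hplan : ∫⁻ p, tripleCost s p ∂(plan m Y W) = 3 * ∫⁻ x, Φ x ∂(mu5 m Y W) := by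
    rw [lintegral_plan hY hW hcostm, lintegral_mu5 hY hW hΦm, Finset.mul_sum]
    refine Finset.sum_congr rfl fun i _ => ?_
    have hYi := hY i
    have hWi := hW i
    rw [← lintegral_const_mul _ (by fun_prop)]
    refine lintegral_congr_ae ?_
    filter_upwards [hmU] with x hx
    rw [tripleCost_rot s x (Y i x) (W i x), tripleCost_rot' s x (Y i x) (W i x), ← heq x hx i]
    ring
  have hNm : MeasurableSet (clusters (ball 0 r) Y W) :=
    (measurableSet_ball.union (MeasurableSet.iUnion hYU)).union (MeasurableSet.iUnion hWU)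
  refine ⟨fun x => G x ^ 2, fun x => by positivity, hGc.pow 2,
    hasCompactSupport_sq hGs, ?_, hint1, plan m Y W, ?_, ?_, ?_, ?_, ?_⟩
  · have : (fun x => Real.sqrt (G x ^ 2)) = G := by
      funext x
      rw [Real.sqrt_sq (hG0 x)]
    rw [this]
    exact hGc
  · rw [hμ]
    exact isCoupling_plan hY hW
  · rw [hplan]
    exact (ENNReal.mul_ne_top (by simp) hΦfin).lt_top
  · intro π hπ
    rw [hμ] at hπ
    rw [hplan]
    exact lower_bound hΦm (ae_mem_clusters hmU hY hW hNm) hdual hπ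
  · intro T₂ T₃ hT₂ hT₃ h2 h3
    rw [hμ] at h2 h3 ⊢
    rw [hplan]
    exact monge_strict hm0 measurableSet_ball hmU hY hX hW hZ (fun i => (hYX i).left_inv)
      (fun i => (hWZ i).left_inv) hYU hWU d1 d2 d3 d4 d5 hcostm hΦm hΦfin hdual hslack
      hT₂ hT₃ h2 h3
  · intro ε hε
    rw [hμ]
    refine monge_approx (K := closedBall 0 (r / 2)) ?_ measurableSet_ball hKU hmK hY hX hW hZ
      (fun i => (hYX i).left_inv) (fun i => (hWZ i).left_inv) hYU hWU d1 d2 d3 d4 d5 hcostm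
      ?_ ?_ ?_ ε hε
    · rw [hmuniv]
      have : (2 : ℝ≥0∞) = ENNReal.ofReal 2 := by simp
      rw [this, ← ENNReal.ofReal_mul (by norm_num)]
      exact ENNReal.ofReal_le_one.mpr (by norm_num)
    · intro η hη
      have hu : ∀ i, ∃ δ : ℝ, 0 < δ ∧ ∀ x ∈ closedBall (0 : E) (r / 2),
          ∀ x' ∈ closedBall (0 : E) (r / 2), dist x' x ≤ δ →
          tripleCost s (x, Y i x', W i x') ≤ tripleCost s (x', Y i x', W i x') + η := by
        intro i
        refine cost_unif s (isCompact_closedBall 0 (r / 2))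
          ((hYX i).smooth.continuousOn.mono hKU) ((hWZ i).smooth.continuousOn.mono hKU)
          ?_ ?_ ?_ η hη
        · intro x hx x' hx' h
          refine Set.disjoint_left.mp (d1 i) (hKU hx) ?_
          rw [h]
          exact mem_image_of_mem _ (hKU hx')
        · intro x hx x' hx' h
          refine Set.disjoint_left.mp (d2 i) (hKU hx) ?_
          rw [h]
          exact mem_image_of_mem _ (hKU hx')
        · intro x hx h
          refine Set.disjoint_left.mp (d3 i i) (mem_image_of_mem _ (hKU hx)) ?_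
          rw [h]
          exact mem_image_of_mem _ (hKU hx)
      choose δ hδ0 hδ using hu
      refine ⟨min (δ 0) (δ 1), lt_min (hδ0 0) (hδ0 1), fun i x hx x' hx' hdist => ?_⟩
      refine hδ i x hx x' hx' (hdist.trans ?_)
      fin_cases i
      · exact min_le_left _ _
      · exact min_le_right _ _
    · intro ε' hε'
      exact doubling m hmac ε' hε'
    · rw [hplan]
      exact ENNReal.mul_ne_top (by simp) hΦfin

end Crest.Agent.R130
end

-- ▼ part R130/Pair
section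

/-! # R130 (S0175): basic API of `SmoothPair`. -/

set_option autoImplicit false

open MeasureTheory Metric Set Filter
open scoped ENNReal ContDiff Topology

namespace Crest.Agent.R130

namespace SmoothPair

variable {E : Type*} [NormedAddCommGroup E] [NormedSpace ℝ E] [MeasurableSpace E]
  {U U' : Set E} {Y X : E → E}


theorem image_eq (h : SmoothPair U Y X) (hU : U' ⊆ U) : Y '' U' = (Y '' U) ∩ X ⁻¹' U' := by
  ext y
  constructor
  · rintro ⟨x, hx, rfl⟩
    exact ⟨⟨x, hU hx, rfl⟩, by simpa [h.left_inv x (hU hx)] using hx⟩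
  · rintro ⟨⟨x, hx, rfl⟩, hy⟩
    refine ⟨x, ?_, rfl⟩
    simpa [h.left_inv x hx] using hy

theorem mono (h : SmoothPair U Y X) (hU : U' ⊆ U) (hU' : IsOpen U') : SmoothPair U' Y X where
  isOpen_source := hU'
  isOpen_target := by
    rw [h.image_eq hU]
    exact h.smooth_symm.continuousOn.isOpen_inter_preimage h.isOpen_target hU'
  smooth := h.smooth.mono hU
  smooth_symm := h.smooth_symm.mono (image_mono hU)
  left_inv x hx := h.left_inv x (hU hx)
  measurable := h.measurable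
  measurable_symm := h.measurable_symm

/-- Conjugation by a linear isometric involution `σ` preserving `U`. -/
theorem conj [BorelSpace E] (h : SmoothPair U Y X) (σ : E ≃ₗᵢ[ℝ] E) (hσ : ∀ x, σ (σ x) = x)
    (hσU : ∀ x ∈ U, σ x ∈ U) :
    SmoothPair U (fun x => σ (Y (σ x))) (fun x => σ (X (σ x))) := by
  have himg : (fun x => σ (Y (σ x))) '' U = σ ⁻¹' (Y '' U) := by
    ext y
    constructor
    · rintro ⟨x, hx, rfl⟩
      exact ⟨σ x, hσU x hx, by simp [hσ]⟩
    · rintro ⟨x, hx, hxy⟩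
      refine ⟨σ x, hσU x hx, ?_⟩
      simp [hσ, hxy]
  refine ⟨h.isOpen_source, ?_, ?_, ?_, ?_, ?_, ?_⟩
  · rw [himg]
    exact h.isOpen_target.preimage σ.continuous
  · exact σ.contDiff.comp_contDiffOn (h.smooth.comp σ.contDiff.contDiffOn (fun x hx => hσU x hx))
  · refine σ.contDiff.comp_contDiffOn (h.smooth_symm.comp σ.contDiff.contDiffOn (fun x hx => ?_))
    rw [himg] at hx
    exact hx
  · intro x hx
    simp only [hσ]
    rw [h.left_inv _ (hσU x hx), hσ]
  · exact σ.continuous.measurable.comp (h.measurable.comp σ.continuous.measurable)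
  · exact σ.continuous.measurable.comp (h.measurable_symm.comp σ.continuous.measurable)

end SmoothPair

/-- Two germs of analytic maps, inverse to each other, give a `SmoothPair` (after changing the
functions away from the point). -/
theorem exists_smoothPair {E : Type*} [NormedAddCommGroup E] [NormedSpace ℝ E] [MeasurableSpace E]
    [BorelSpace E] (Y X : E → E) (a : E) (hY : ContDiffAt ℝ ω Y a) (hX : ContDiffAt ℝ ω X (Y a))
    (h1 : ∀ᶠ x in 𝓝 a, X (Y x) = x) (h2 : ∀ᶠ y in 𝓝 (Y a), Y (X y) = y) :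
    ∃ V : Set E, IsOpen V ∧ a ∈ V ∧ ∃ Y' X' : E → E, SmoothPair V Y' X' ∧
      (∀ x ∈ V, Y' x = Y x) ∧ (∀ y ∈ Y '' V, X' y = X y) := by
  classical
  obtain ⟨O, hO, hOo, haO⟩ := _root_.eventually_nhds_iff.1 (h1.and (hY.eventually (by simp)))
  obtain ⟨P, hP, hPo, haP⟩ := _root_.eventually_nhds_iff.1 (h2.and (hX.eventually (by simp)))
  have hYO : ContinuousOn Y O := fun x hx => (hO x hx).2.continuousAt.continuousWithinAt
  have hXP : ContinuousOn X P := fun x hx => (hP x hx).2.continuousAt.continuousWithinAt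
  set V : Set E := O ∩ Y ⁻¹' P with hV
  have hVo : IsOpen V := hYO.isOpen_inter_preimage hOo hPo
  have hVimg : Y '' V = P ∩ X ⁻¹' O := by
    ext y
    constructor
    · rintro ⟨x, ⟨hx1, hx2⟩, rfl⟩
      refine ⟨hx2, ?_⟩
      simp only [mem_preimage]
      rw [(hO x hx1).1]
      exact hx1
    · rintro ⟨hy1, hy2⟩
      refine ⟨X y, ⟨hy2, ?_⟩, (hP y hy1).1⟩
      simp only [mem_preimage]
      rw [(hP y hy1).1]
      exact hy1
  have hYVo : IsOpen (Y '' V) := by
    rw [hVimg]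
    exact hXP.isOpen_inter_preimage hPo hOo
  refine ⟨V, hVo, ⟨haO, haP⟩, V.piecewise Y (fun _ => 0), (Y '' V).piecewise X (fun _ => 0),
    ?_, fun x hx => by simp [hx], fun y hy => by simp only [piecewise, if_pos hy]⟩
  have himg : V.piecewise Y (fun _ => (0 : E)) '' V = Y '' V :=
    image_congr fun x hx => by simp [hx]
  refine ⟨hVo, by rwa [himg], ?_, ?_, ?_, ?_, ?_⟩
  · refine ContDiffOn.congr (f := Y) ?_ (fun x hx => by simp [hx])
    exact fun x hx => ((hO x hx.1).2.of_le le_top).contDiffWithinAt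
  · rw [himg]
    refine ContDiffOn.congr (f := X) ?_ (fun x hx => by simp only [piecewise, if_pos hx])
    exact fun x hx => ((hP x (by rw [hVimg] at hx; exact hx.1)).2.of_le le_top).contDiffWithinAt
  · intro x hx
    have h3 : V.piecewise Y (fun _ => (0 : E)) x = Y x := by simp [hx]
    have h4 : Y x ∈ Y '' V := ⟨x, hx, rfl⟩
    rw [h3]
    simp only [piecewise, if_pos h4]
    exact (hO x hx.1).1
  · exact (hYO.mono inter_subset_left).measurable_piecewise continuousOn_const hVo.measurableSet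
  · refine ContinuousOn.measurable_piecewise (hXP.mono ?_) continuousOn_const hYVo.measurableSet
    rw [hVimg]; exact inter_subset_left

end Crest.Agent.R130
end

-- ▼ part R130/Force
section

/-! # R130 (S0175): the gradient `f` of `‖w‖^(-s)`, its derivative, and the semiconvexity
inequality. -/

set_option autoImplicit false

open MeasureTheory Metric Set Filter
open scoped ENNReal ContDiff Topology RealInnerProductSpace

namespace Crest.Agent.R130

variable {E : Type*} [NormedAddCommGroup E] [InnerProductSpace ℝ E]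

/-- The gradient of `w ↦ ‖w‖^(-s)`. -/
noncomputable def force (s : ℝ) (w : E) : E := (-s * ‖w‖ ^ (-s - 2)) • w

theorem force_neg (s : ℝ) (w : E) : force s (-w) = - force s w := by
  simp [force]


theorem contDiffAt_force (s : ℝ) {w : E} (hw : w ≠ 0) {n : WithTop ℕ∞} :
    ContDiffAt ℝ n (force (E := E) s) w := by
  unfold force
  have h1 : ContDiffAt ℝ n (fun w : E => ‖w‖) w := contDiffAt_norm ℝ hw
  exact ((contDiffAt_const.mul (h1.rpow_const_of_ne (by simpa using hw)))).smul contDiffAt_id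

/-- The derivative of `force`. -/
noncomputable def forceD (s : ℝ) (w : E) : E →L[ℝ] E :=
  (-s * ‖w‖ ^ (-s - 2)) • ContinuousLinearMap.id ℝ E +
    (s * (s + 2) * ‖w‖ ^ (-s - 4)) • (innerSL ℝ w).smulRight w

theorem forceD_apply (s : ℝ) (w v : E) :
    forceD s w v = (-s * ‖w‖ ^ (-s - 2)) • v + (s * (s + 2) * ‖w‖ ^ (-s - 4) * ⟪w, v⟫) • w := by
  simp [forceD, smul_smul]

theorem hasFDerivAt_norm_rpow_ne (p : ℝ) {w : E} (hw : w ≠ 0) :
    HasFDerivAt (fun w : E => ‖w‖ ^ p) ((p * ‖w‖ ^ (p - 2)) • innerSL ℝ w) w := by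
  have h1 : HasFDerivAt (fun w : E => ‖w‖ ^ 2) (2 • innerSL ℝ w) w :=
    (hasStrictFDerivAt_norm_sq w).hasFDerivAt
  have hpos : 0 < ‖w‖ := norm_pos_iff.2 hw
  have h2 : HasDerivAt (fun t : ℝ => t ^ (p / 2)) ((p / 2) * (‖w‖ ^ 2) ^ (p / 2 - 1)) (‖w‖ ^ 2) :=
    Real.hasDerivAt_rpow_const (Or.inl (by positivity))
  have h3 := h2.comp_hasFDerivAt w h1
  have h4 : (fun w : E => ‖w‖ ^ p) = (fun t : ℝ => t ^ (p / 2)) ∘ (fun w : E => ‖w‖ ^ 2) := by
    funext w
    simp only [Function.comp]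
    rw [← Real.rpow_natCast, ← Real.rpow_mul (norm_nonneg _)]
    congr 1
    push_cast; ring
  rw [h4]
  convert! h3 using 1
  have h5 : (‖w‖ ^ 2) ^ (p / 2 - 1) = ‖w‖ ^ (p - 2) := by
    rw [← Real.rpow_natCast, ← Real.rpow_mul (norm_nonneg _)]
    congr 1
    push_cast; ring
  rw [h5]
  ext v
  simp
  ring

theorem hasFDerivAt_force (s : ℝ) {w : E} (hw : w ≠ 0) :
    HasFDerivAt (force (E := E) s) (forceD s w) w := by
  have h1 := (hasFDerivAt_norm_rpow_ne (-s - 2) hw).const_mul (-s)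
  have h2 := h1.smul (hasFDerivAt_id w)
  convert! h2 using 1
  ext v
  simp only [forceD_apply, add_apply, smul_apply,
    ContinuousLinearMap.smulRight_apply, innerSL_apply_apply, smul_eq_mul, id,
    ContinuousLinearMap.id_apply]
  rw [show -s - 2 - 2 = -s - 4 by ring]
  congr 2
  ring

theorem forceD_neg (s : ℝ) (w : E) : forceD s (-w) = forceD s w := by
  ext v
  simp [forceD_apply]

theorem forceD_two (s : ℝ) (w : E) :
    forceD s ((2 : ℝ) • w) = (2 : ℝ) ^ (-s - 2) • forceD s w := by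
  ext v
  simp only [forceD_apply, norm_smul, smul_smul, Real.norm_ofNat, smul_apply,
    smul_add, inner_smul_left]
  rw [Real.mul_rpow (by norm_num) (norm_nonneg _), Real.mul_rpow (by norm_num) (norm_nonneg _)]
  have : (2 : ℝ) ^ (-s - 2) = 2 ^ (-s - 4) * 4 := by
    rw [show -s - 2 = (-s - 4) + 2 by ring, Real.rpow_add (by norm_num)]
    norm_num
  rw [this]
  congr 2
  · ring
  · simp; ring

theorem forceD_injective (s : ℝ) (hs : 0 < s) {w : E} (hw : w ≠ 0) {v : E}
    (h : forceD s w v = 0) : v = 0 := by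
  have hpos : 0 < ‖w‖ := norm_pos_iff.2 hw
  rw [forceD_apply] at h
  have h4 : ‖w‖ ^ (-s - 2) = ‖w‖ ^ (-s - 4) * ‖w‖ ^ 2 := by
    rw [← Real.rpow_natCast, ← Real.rpow_add hpos]
    congr 1; push_cast; ring
  have hp : 0 < ‖w‖ ^ (-s - 4) := Real.rpow_pos_of_pos hpos _
  have h1 : ⟪w, (-s * ‖w‖ ^ (-s - 2)) • v + (s * (s + 2) * ‖w‖ ^ (-s - 4) * ⟪w, v⟫) • w⟫ = 0 := by
    rw [h, inner_zero_right]
  rw [inner_add_right, inner_smul_right, inner_smul_right, real_inner_self_eq_norm_sq, h4] at h1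
  have h2 : (s * (s + 1) * ‖w‖ ^ (-s - 4) * ‖w‖ ^ 2) * ⟪w, v⟫ = 0 := by
    linear_combination h1
  have h3 : ⟪w, v⟫ = 0 := by
    rcases mul_eq_zero.1 h2 with h | h
    · exfalso
      have : 0 < s * (s + 1) * ‖w‖ ^ (-s - 4) * ‖w‖ ^ 2 := by positivity
      linarith
    · exact h
  rw [h3] at h
  simp only [mul_zero, zero_smul, add_zero] at h
  rcases smul_eq_zero.1 h with h | h
  · exfalso
    rw [h4] at h
    have : 0 < s * (‖w‖ ^ (-s - 4) * ‖w‖ ^ 2) := by positivity
    linarith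
  · exact h

/-- Semiconvexity of `‖w‖^(-s)`: the one-line inequality. -/
theorem norm_rpow_semiconvex (s : ℝ) (hs : 0 < s) {r r' : E} (hr : r ≠ 0) (hr' : r' ≠ 0) :
    ‖r‖ ^ (-s) + ⟪force s r, r' - r⟫ - s / 2 * ‖r‖ ^ (-s - 2) * ‖r' - r‖ ^ 2 ≤ ‖r'‖ ^ (-s) := by
  have hpos : 0 < ‖r‖ := norm_pos_iff.2 hr
  have hpos' : 0 < ‖r'‖ := norm_pos_iff.2 hr'
  -- tangent line inequality for `t ^ (-p)`, `p = s / 2`
  have key : ∀ t u : ℝ, 0 < t → 0 < u →
      t ^ (-(s / 2)) - s / 2 * t ^ (-(s / 2) - 1) * (u - t) ≤ u ^ (-(s / 2)) := by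
    intro t u ht hu
    have hv : 0 < u / t := div_pos hu ht
    have h1 : 1 - s / 2 * (u / t - 1) ≤ (u / t) ^ (-(s / 2)) := by
      rw [Real.rpow_def_of_pos hv]
      have h2 := Real.add_one_le_exp (Real.log (u / t) * -(s / 2))
      have h3 := Real.log_le_sub_one_of_pos hv
      nlinarith
    have h4 : u ^ (-(s / 2)) = t ^ (-(s / 2)) * (u / t) ^ (-(s / 2)) := by
      rw [← Real.mul_rpow ht.le hv.le, mul_div_cancel₀ _ ht.ne']
    have h5 : t ^ (-(s / 2) - 1) * t = t ^ (-(s / 2)) := by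
      rw [← Real.rpow_add_one ht.ne']; congr 1; ring
    have h6 : 0 < t ^ (-(s / 2)) := Real.rpow_pos_of_pos ht _
    rw [h4]
    calc t ^ (-(s / 2)) - s / 2 * t ^ (-(s / 2) - 1) * (u - t)
        = t ^ (-(s / 2)) - s / 2 * (t ^ (-(s / 2) - 1) * t) * (u / t - 1) := by
          field_simp
      _ = t ^ (-(s / 2)) * (1 - s / 2 * (u / t - 1)) := by rw [h5]; ring
      _ ≤ _ := mul_le_mul_of_nonneg_left h1 h6.le
  have h := key (‖r‖ ^ 2) (‖r'‖ ^ 2) (by positivity) (by positivity)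
  have e1 : ∀ x : ℝ, 0 ≤ x → (x ^ 2) ^ (-(s / 2)) = x ^ (-s) := by
    intro x hx
    rw [← Real.rpow_natCast, ← Real.rpow_mul hx]
    congr 1; push_cast; ring
  have e2 : (‖r‖ ^ 2) ^ (-(s / 2) - 1) = ‖r‖ ^ (-s - 2) := by
    rw [← Real.rpow_natCast, ← Real.rpow_mul (norm_nonneg _)]
    congr 1; push_cast; ring
  rw [e1 _ (norm_nonneg _), e1 _ (norm_nonneg _), e2] at h
  refine le_trans (le_of_eq ?_) h
  have h7 : ‖r'‖ ^ 2 = ‖r‖ ^ 2 + 2 * ⟪r, r' - r⟫ + ‖r' - r‖ ^ 2 := by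
    have := norm_add_sq_real r (r' - r)
    simpa using this
  rw [h7, force, inner_smul_left]
  simp
  ring

end Crest.Agent.R130
end

-- ▼ part R130/LocalP
section

/-! # R130 (S0175): L1, the local structure near `(0, b, -b)`. -/

set_option autoImplicit false

open MeasureTheory Metric Set Filter
open scoped ENNReal ContDiff Topology RealInnerProductSpace

namespace Crest.Agent.R130

variable {E : Type*} [NormedAddCommGroup E] [InnerProductSpace ℝ E]

/-- The critical point equations. -/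
noncomputable def P (s K : ℝ) (b : E) (v : E × E × E) : E × E :=
  (force s (v.1 - v.2.1) + force s (v.1 - v.2.2) + K • v.1,
    force s (v.2.2 - v.1) + force s (v.2.2 - v.2.1) + (force s b + force s ((2 : ℝ) • b)) +
      K • (v.2.2 + b))

/-- The derivative of `P` at `(0, b, -b)`. -/
noncomputable def PD (s K : ℝ) (b : E) : E × E × E →L[ℝ] E × E :=
  ((forceD s b).comp (ContinuousLinearMap.fst ℝ E (E × E) -
      (ContinuousLinearMap.fst ℝ E E).comp (ContinuousLinearMap.snd ℝ E (E × E))) +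
    (forceD s b).comp (ContinuousLinearMap.fst ℝ E (E × E) -
      (ContinuousLinearMap.snd ℝ E E).comp (ContinuousLinearMap.snd ℝ E (E × E))) +
    K • ContinuousLinearMap.fst ℝ E (E × E)).prod
  ((forceD s b).comp ((ContinuousLinearMap.snd ℝ E E).comp (ContinuousLinearMap.snd ℝ E (E × E)) -
      ContinuousLinearMap.fst ℝ E (E × E)) +
    ((2 : ℝ) ^ (-s - 2)) • (forceD s b).comp
      ((ContinuousLinearMap.snd ℝ E E).comp (ContinuousLinearMap.snd ℝ E (E × E)) -
      (ContinuousLinearMap.fst ℝ E E).comp (ContinuousLinearMap.snd ℝ E (E × E))) +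
    K • (ContinuousLinearMap.snd ℝ E E).comp (ContinuousLinearMap.snd ℝ E (E × E)))

theorem PD_apply (s K : ℝ) (b : E) (v : E × E × E) :
    PD s K b v = (forceD s b (v.1 - v.2.1) + forceD s b (v.1 - v.2.2) + K • v.1,
      forceD s b (v.2.2 - v.1) + (2 : ℝ) ^ (-s - 2) • forceD s b (v.2.2 - v.2.1) + K • v.2.2) := by
  simp [PD]

theorem P_base (s K : ℝ) (b : E) : P s K b (0, b, -b) = 0 := by
  have : -b - b = -((2 : ℝ) • b) := by rw [two_smul]; abel
  simp only [P, this, force_neg, zero_sub, sub_zero, neg_neg, neg_add_cancel, smul_zero, add_zero]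
  refine Prod.ext ?_ ?_
  · simp
  · simp only [Prod.snd_zero]
    abel

theorem hasFDerivAt_P (s K : ℝ) {b : E} (hb : b ≠ 0) :
    HasFDerivAt (P s K b) (PD s K b) (0, b, -b) := by
  have e1 : HasFDerivAt (fun v : E × E × E => v.1) (ContinuousLinearMap.fst ℝ E (E × E))
    (0, b, -b) := (ContinuousLinearMap.fst ℝ E (E × E)).hasFDerivAt
  have e2 : HasFDerivAt (fun v : E × E × E => v.2.1)
    ((ContinuousLinearMap.fst ℝ E E).comp (ContinuousLinearMap.snd ℝ E (E × E)))
    (0, b, -b) :=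
      ((ContinuousLinearMap.fst ℝ E E).comp (ContinuousLinearMap.snd ℝ E (E × E))).hasFDerivAt
  have e3 : HasFDerivAt (fun v : E × E × E => v.2.2)
    ((ContinuousLinearMap.snd ℝ E E).comp (ContinuousLinearMap.snd ℝ E (E × E)))
    (0, b, -b) :=
      ((ContinuousLinearMap.snd ℝ E E).comp (ContinuousLinearMap.snd ℝ E (E × E))).hasFDerivAt
  have h2b : (2 : ℝ) • b ≠ 0 := by simp [hb]
  have f1 : HasFDerivAt (force (E := E) s) (forceD s b) (0 - b) := by
    have := hasFDerivAt_force s (w := 0 - b) (by simpa using hb)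
    rwa [zero_sub, forceD_neg, ← zero_sub] at this
  have f2 : HasFDerivAt (force (E := E) s) (forceD s b) (0 - -b) := by
    have := hasFDerivAt_force s (w := b) hb
    rwa [show (0 : E) - -b = b by simp]
  have f3 : HasFDerivAt (force (E := E) s) (forceD s b) (-b - 0) := by
    have := hasFDerivAt_force s (w := -b) (by simpa using hb)
    rwa [forceD_neg, ← sub_zero (-b)] at this
  have f4 : HasFDerivAt (force (E := E) s) ((2 : ℝ) ^ (-s - 2) • forceD s b) (-b - b) := by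
    have := hasFDerivAt_force s (w := -((2 : ℝ) • b)) (by simpa using hb)
    rw [forceD_neg, forceD_two] at this
    rwa [show -b - b = -((2 : ℝ) • b) by rw [two_smul]; abel]
  have g1 := (f1.comp (0, b, -b) (e1.sub e2)).add (f2.comp (0, b, -b) (e1.sub e3))
  have g2 := ((f3.comp (0, b, -b) (e3.sub e1)).add (f4.comp (0, b, -b) (e3.sub e2))).add_const
    (force s b + force s ((2 : ℝ) • b))
  exact (g1.add (e1.const_smul K)).prodMk (g2.add ((e3.add_const b).const_smul K))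

theorem contDiffAt_P (s K : ℝ) {b : E} (hb : b ≠ 0) {n : WithTop ℕ∞} :
    ContDiffAt ℝ n (P s K b) (0, b, -b) := by
  have e1 : ContDiffAt ℝ n (fun v : E × E × E => v.1) (0, b, -b) := contDiffAt_fst
  have e2 : ContDiffAt ℝ n (fun v : E × E × E => v.2.1) (0, b, -b) := by fun_prop
  have e3 : ContDiffAt ℝ n (fun v : E × E × E => v.2.2) (0, b, -b) := by fun_prop
  have h2b : -b - b ≠ 0 := by
    rw [show -b - b = -((2 : ℝ) • b) by rw [two_smul]; abel]
    simpa using hb
  have f1 := (contDiffAt_force (E := E) s (w := 0 - b) (by simpa using hb) (n := n)).comp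
    (0, b, -b) (e1.sub e2)
  have f2 := (contDiffAt_force (E := E) s (w := 0 - -b) (by simpa using hb) (n := n)).comp
    (0, b, -b) (e1.sub e3)
  have f3 := (contDiffAt_force (E := E) s (w := -b - 0) (by simpa using hb) (n := n)).comp
    (0, b, -b) (e3.sub e1)
  have f4 := (contDiffAt_force (E := E) s (w := -b - b) h2b (n := n)).comp
    (0, b, -b) (e3.sub e2)
  exact ((f1.add f2).add (e1.const_smul K)).prodMk (((f3.add f4).add contDiffAt_const).add
    ((e3.add contDiffAt_const).const_smul K))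

/-- Linear algebra: a kernel vector of `PD` with one vanishing component vanishes. -/
theorem PD_ker (s : ℝ) (hs : 0 < s) {b : E} (hb : b ≠ 0) (K : ℝ)
    (hK : ‖forceD s b‖ * (3 + 1 / (2 : ℝ) ^ (-s - 2)) < K) (v : E × E × E)
    (hv : PD s K b v = 0) (h0 : v.1 = 0 ∨ v.2.1 = 0 ∨ v.2.2 = 0) : v = 0 := by
  obtain ⟨x, y, z⟩ := v
  rw [PD_apply] at hv
  simp only [Prod.mk_eq_zero] at hv h0 ⊢
  obtain ⟨h1, h2⟩ := hv
  set H := forceD s b with hH
  set κ : ℝ := (2 : ℝ) ^ (-s - 2) with hκ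
  have hκ0 : 0 < κ := Real.rpow_pos_of_pos (by norm_num) _
  have hκ1 : κ ≤ 1 := Real.rpow_le_one_of_one_le_of_nonpos (by norm_num) (by linarith)
  have hHn : 0 ≤ ‖H‖ := norm_nonneg _
  have hκi : 0 < 1 / κ := by positivity
  have hK3 : ‖H‖ * 3 < K := by nlinarith
  -- an inequality of the form `K ‖v‖ ≤ C ‖v‖` with `C < K` kills `v`
  have kill : ∀ (C : ℝ) (v : E), C ≤ 3 + 1 / κ → 0 ≤ C → K * ‖v‖ ≤ C * (‖H‖ * ‖v‖) → v = 0 := by
    intro C v hC hC0 h
    by_contra hne
    have : 0 < ‖v‖ := norm_pos_iff.2 hne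
    have h3 : C * (‖H‖ * ‖v‖) ≤ ‖H‖ * (3 + 1 / κ) * ‖v‖ := by
      have : 0 ≤ ‖H‖ * ‖v‖ := by positivity
      nlinarith
    nlinarith
  have hKpos : 0 < K := by nlinarith [mul_nonneg hHn (by norm_num : (0 : ℝ) ≤ 3)]
  rcases h0 with rfl | rfl | rfl
  · -- x = 0
    have e1 : H (y + z) = 0 := by
      have : H (0 - y) + H (0 - z) + K • (0 : E) = -(H (y + z)) := by
        simp [map_add]; abel
      rw [this, neg_eq_zero] at h1
      exact h1
    have e2 : y + z = 0 := forceD_injective s hs hb e1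
    have e3 : y = -z := eq_neg_of_add_eq_zero_left e2
    subst e3
    have e4 : K • z = -((1 + 2 * κ) • H z) := by
      have : H (z - 0) + κ • H (z - -z) + K • z = (1 + 2 * κ) • H z + K • z := by
        simp only [sub_zero, sub_neg_eq_add, map_add, smul_add, add_smul, one_smul, mul_smul,
          two_smul]
      rw [this] at h2
      exact eq_neg_of_add_eq_zero_right h2
    have e5 : z = 0 := by
      apply kill (1 + 2 * κ) z (by linarith) (by positivity)
      have := congrArg norm e4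
      rw [norm_smul, norm_neg, norm_smul, Real.norm_of_nonneg hKpos.le,
        Real.norm_of_nonneg (by positivity)] at this
      rw [this]
      exact mul_le_mul_of_nonneg_left (H.le_opNorm z) (by positivity)
    simp [e5]
  · -- y = 0
    have hx : K * ‖x‖ ≤ ‖H‖ * (2 * ‖x‖ + ‖z‖) := by
      have : K • x = -(H (x - 0) + H (x - z)) := eq_neg_of_add_eq_zero_right h1
      have h3 := congrArg norm this
      rw [norm_smul, norm_neg, Real.norm_of_nonneg hKpos.le] at h3
      rw [h3]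
      calc ‖H (x - 0) + H (x - z)‖ ≤ ‖H (x - 0)‖ + ‖H (x - z)‖ := norm_add_le _ _
        _ ≤ ‖H‖ * ‖x‖ + ‖H‖ * (‖x‖ + ‖z‖) := by
            gcongr
            · simpa using H.le_opNorm x
            · exact (H.le_opNorm _).trans (by gcongr; exact norm_sub_le _ _)
        _ = _ := by ring
    have hz : K * ‖z‖ ≤ ‖H‖ * (2 * ‖z‖ + ‖x‖) := by
      have : K • z = -(H (z - x) + κ • H (z - 0)) := eq_neg_of_add_eq_zero_right h2
      have h3 := congrArg norm this
      rw [norm_smul, norm_neg, Real.norm_of_nonneg hKpos.le] at h3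
      rw [h3]
      calc ‖H (z - x) + κ • H (z - 0)‖ ≤ ‖H (z - x)‖ + ‖κ • H (z - 0)‖ := norm_add_le _ _
        _ ≤ ‖H‖ * (‖z‖ + ‖x‖) + 1 * (‖H‖ * ‖z‖) := by
            rw [norm_smul, Real.norm_of_nonneg hκ0.le, sub_zero]
            gcongr
            · exact (H.le_opNorm _).trans (by gcongr; exact norm_sub_le _ _)
            · exact H.le_opNorm z
        _ = _ := by ring
    have hsum : (K - ‖H‖ * 3) * (‖x‖ + ‖z‖) ≤ 0 := by nlinarith
    have hxz : ‖x‖ + ‖z‖ ≤ 0 := by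
      by_contra hcon
      push Not at hcon
      have : 0 < (K - ‖H‖ * 3) * (‖x‖ + ‖z‖) := mul_pos (by linarith) hcon
      linarith
    have hx0 : ‖x‖ = 0 := by linarith [norm_nonneg x, norm_nonneg z]
    have hz0 : ‖z‖ = 0 := by linarith [norm_nonneg x, norm_nonneg z]
    simp [norm_eq_zero.1 hx0, norm_eq_zero.1 hz0]
  · -- z = 0
    have e1 : H (x + κ • y) = 0 := by
      have : H (0 - x) + κ • H (0 - y) + K • (0 : E) = -(H (x + κ • y)) := by
        simp [map_add]; abel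
      rw [this, neg_eq_zero] at h2
      exact h2
    have e2 : x + κ • y = 0 := forceD_injective s hs hb e1
    have e3 : y = -((1 / κ) • x) := by
      have : κ • y = -x := eq_neg_of_add_eq_zero_right e2
      have h3 : y = (1 / κ) • (κ • y) := by
        rw [smul_smul, one_div, inv_mul_cancel₀ hκ0.ne', one_smul]
      rw [h3, this, smul_neg]
    have e4 : K • x = -((2 + 1 / κ) • H x) := by
      have : H (x - y) + H (x - 0) + K • x = (2 + 1 / κ) • H x + K • x := by
        rw [e3]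
        simp only [sub_zero, sub_neg_eq_add, map_add, map_smul, add_smul, two_smul]
        abel
      rw [this] at h1
      exact eq_neg_of_add_eq_zero_right h1
    have e5 : x = 0 := by
      apply kill (2 + 1 / κ) x (by linarith) (by positivity)
      have := congrArg norm e4
      rw [norm_smul, norm_neg, norm_smul, Real.norm_of_nonneg hKpos.le,
        Real.norm_of_nonneg (by positivity)] at this
      rw [this]
      exact mul_le_mul_of_nonneg_left (H.le_opNorm x) (by positivity)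
    subst e5
    simp at e3
    simp [e3]

end Crest.Agent.R130
end

-- ▼ part R130/Local
section

/-! # R130 (S0175): L1, the local structure near `(0, b, -b)`. -/

set_option autoImplicit false

open MeasureTheory Metric Set Filter
open scoped ENNReal ContDiff Topology RealInnerProductSpace

namespace Crest.Agent.R130

variable {E : Type*} [NormedAddCommGroup E] [InnerProductSpace ℝ E]

/-- Implicit function theorem in the analytic category, finite dimensional, only injectivity. -/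
theorem ift_aux [FiniteDimensional ℝ E] (F : E × (E × E) → E × E) (u : E × (E × E))
    (hF : ContDiffAt ℝ ω F u) (F' : E × (E × E) →L[ℝ] E × E) (hF' : HasFDerivAt F F' u)
    (hinj : ∀ w : E × E, F' (0, w) = 0 → w = 0) (h0 : F u = 0) :
    ∃ ψ : E → E × E, ContDiffAt ℝ ω ψ u.1 ∧ ψ u.1 = u.2 ∧
      ∀ᶠ v in 𝓝 u, F v = 0 ↔ ψ v.1 = v.2 := by
  have hinv : (fderiv ℝ F u ∘L .inr ℝ E (E × E)).IsInvertible := by
    rw [hF'.fderiv]
    have h1 : LinearMap.ker (F' ∘L .inr ℝ E (E × E) : E × E →L[ℝ] E × E).toLinearMap = ⊥ := by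
      rw [LinearMap.ker_eq_bot']
      intro w hw
      exact hinj w (by simpa using hw)
    let e := LinearEquiv.ofInjectiveEndo (F' ∘L .inr ℝ E (E × E) : E × E →L[ℝ] E × E).toLinearMap
      (LinearMap.ker_eq_bot.1 h1)
    refine ⟨e.toContinuousLinearEquiv, ?_⟩
    ext w <;> rfl
  refine ⟨hF.implicitFunction (by simp) hinv, hF.contDiffAt_implicitFunction (by simp) hinv,
    hF.implicitFunction_apply_self (by simp) hinv, ?_⟩
  have := hF.eventually_apply_eq_iff_implicitFunction (by simp) hinv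
  rw [h0] at this
  exact this

/-- The function whose `x, z` gradient is `P`. -/
noncomputable def Q (s K : ℝ) (b x y z : E) : ℝ :=
  c s x y z + K / 2 * ‖x‖ ^ 2 + ⟪force s b + force s ((2 : ℝ) • b), z + b⟫ + K / 2 * ‖z + b‖ ^ 2

theorem rpow_bound (s : ℝ) (hs : 0 < s) {t M : ℝ} (hM : 0 < M) (ht : M ≤ t) :
    t ^ (-s - 2) ≤ M ^ (-s - 2) :=
  Real.rpow_le_rpow_of_nonpos hM ht (by linarith)

theorem Q_ineq (s K : ℝ) (hs : 0 < s) (b x₁ y z₁ x z : E) (hP : P s K b (x₁, y, z₁) = 0)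
    (hb : b ≠ 0)
    (h1 : ‖b‖ / 2 ≤ ‖x₁ - y‖) (h2 : ‖b‖ / 2 ≤ ‖x₁ - z₁‖) (h3 : ‖b‖ / 2 ≤ ‖y - z₁‖)
    (h4 : x ≠ y) (h5 : x ≠ z) (h6 : y ≠ z) :
    Q s K b x₁ y z₁ + (K / 2 - 3 / 2 * s * (‖b‖ / 2) ^ (-s - 2)) *
      (‖x - x₁‖ ^ 2 + ‖z - z₁‖ ^ 2) ≤ Q s K b x y z := by
  have hb0 : 0 < ‖b‖ / 2 := by have := norm_pos_iff.2 hb; positivity
  set M : ℝ := (‖b‖ / 2) ^ (-s - 2) with hM
  have hM0 : 0 < M := Real.rpow_pos_of_pos hb0 _
  simp only [P, Prod.mk_eq_zero] at hP
  obtain ⟨hP1, hP2⟩ := hP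
  have n1 : x₁ - y ≠ 0 := norm_pos_iff.1 (lt_of_lt_of_le hb0 h1)
  have n2 : x₁ - z₁ ≠ 0 := norm_pos_iff.1 (lt_of_lt_of_le hb0 h2)
  have n3 : z₁ - y ≠ 0 := by rw [← norm_pos_iff, norm_sub_rev]; exact (lt_of_lt_of_le hb0 h3)
  have a1 := norm_rpow_semiconvex s hs n1 (sub_ne_zero.2 h4)
  have a2 := norm_rpow_semiconvex s hs n2 (sub_ne_zero.2 h5)
  have a3 := norm_rpow_semiconvex s hs n3 (sub_ne_zero.2 h6.symm)
  set p : E := x - x₁ with hp
  set w : E := z - z₁ with hw
  rw [show x - y - (x₁ - y) = p by rw [hp]; abel] at a1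
  rw [show x - z - (x₁ - z₁) = p - w by rw [hp, hw]; abel] at a2
  rw [show z - y - (z₁ - y) = w by rw [hw]; abel] at a3
  have m1 : s / 2 * ‖x₁ - y‖ ^ (-s - 2) * ‖p‖ ^ 2 ≤ s / 2 * M * ‖p‖ ^ 2 := by
    gcongr; exact rpow_bound s hs hb0 h1
  have m2 : s / 2 * ‖x₁ - z₁‖ ^ (-s - 2) * ‖p - w‖ ^ 2 ≤
      s / 2 * M * (2 * (‖p‖ ^ 2 + ‖w‖ ^ 2)) := by
    have : ‖p - w‖ ^ 2 ≤ 2 * (‖p‖ ^ 2 + ‖w‖ ^ 2) := by
      have := parallelogram_law_with_norm ℝ p w
      nlinarith [norm_nonneg (p + w)]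
    gcongr
    exact rpow_bound s hs hb0 h2
  have m3 : s / 2 * ‖z₁ - y‖ ^ (-s - 2) * ‖w‖ ^ 2 ≤ s / 2 * M * ‖w‖ ^ 2 := by
    gcongr; exact rpow_bound s hs hb0 (by rwa [norm_sub_rev])
  have q1 : ‖x‖ ^ 2 = ‖x₁‖ ^ 2 + 2 * ⟪x₁, p⟫ + ‖p‖ ^ 2 := by
    have := norm_add_sq_real x₁ p
    rwa [show x₁ + p = x by rw [hp]; abel] at this
  have q2 : ‖z + b‖ ^ 2 = ‖z₁ + b‖ ^ 2 + 2 * ⟪z₁ + b, w⟫ + ‖w‖ ^ 2 := by
    have := norm_add_sq_real (z₁ + b) w
    rwa [show z₁ + b + w = z + b by rw [hw]; abel] at this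
  have q3 : ⟪force s b + force s ((2 : ℝ) • b), z + b⟫ =
      ⟪force s b + force s ((2 : ℝ) • b), z₁ + b⟫ + ⟪force s b + force s ((2 : ℝ) • b), w⟫ := by
    rw [← inner_add_right]; congr 1; rw [hw]; abel
  have i1 : ⟪force s (x₁ - y), p⟫ + ⟪force s (x₁ - z₁), p⟫ + K * ⟪x₁, p⟫ = 0 := by
    have := congrArg (fun t => ⟪t, p⟫) hP1
    simpa [inner_add_left, inner_smul_left] using this
  have i2 : -⟪force s (x₁ - z₁), w⟫ + ⟪force s (z₁ - y), w⟫ +
      ⟪force s b + force s ((2 : ℝ) • b), w⟫ + K * ⟪z₁ + b, w⟫ = 0 := by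
    have := congrArg (fun t => ⟪t, w⟫) hP2
    rw [show z₁ - x₁ = -(x₁ - z₁) by abel, force_neg] at this
    rw [← inner_neg_left, ← inner_add_left, ← inner_add_left]
    have e : K * ⟪z₁ + b, w⟫ = ⟪K • (z₁ + b), w⟫ := (real_inner_smul_left _ _ _).symm
    rw [e, ← inner_add_left]
    simpa using this
  have i3 : ⟪force s (x₁ - z₁), p - w⟫ = ⟪force s (x₁ - z₁), p⟫ - ⟪force s (x₁ - z₁), w⟫ :=
    inner_sub_right _ _ _
  unfold Q c
  rw [q1, q2, q3, norm_sub_rev y z, norm_sub_rev y z₁]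
  nlinarith

/-- Swap of the first two components. -/
def sw12 : E × E × E →L[ℝ] E × E × E :=
  ((ContinuousLinearMap.fst ℝ E E).comp (ContinuousLinearMap.snd ℝ E (E × E))).prod
    ((ContinuousLinearMap.fst ℝ E (E × E)).prod
      ((ContinuousLinearMap.snd ℝ E E).comp (ContinuousLinearMap.snd ℝ E (E × E))))

/-- Swap of the first and third components. -/
def sw13 : E × E × E →L[ℝ] E × E × E :=
  ((ContinuousLinearMap.snd ℝ E E).comp (ContinuousLinearMap.snd ℝ E (E × E))).prod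
    (((ContinuousLinearMap.fst ℝ E E).comp (ContinuousLinearMap.snd ℝ E (E × E))).prod
      (ContinuousLinearMap.fst ℝ E (E × E)))

theorem sw12_apply (v : E × E × E) : sw12 v = (v.2.1, v.1, v.2.2) := rfl

theorem sw13_apply (v : E × E × E) : sw13 v = (v.2.2, v.2.1, v.1) := rfl

theorem local_ift [FiniteDimensional ℝ E] (s : ℝ) (hs : 0 < s) {b : E} (hb : b ≠ 0) (K : ℝ)
    (hK : ‖forceD s b‖ * (3 + 1 / (2 : ℝ) ^ (-s - 2)) < K) :
    ∃ Y X W Z : E → E, ContDiffAt ℝ ω Y 0 ∧ ContDiffAt ℝ ω X b ∧ ContDiffAt ℝ ω W 0 ∧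
      ContDiffAt ℝ ω Z (-b) ∧ Y 0 = b ∧ X b = 0 ∧ W 0 = -b ∧ Z (-b) = 0 ∧
      (∀ᶠ x in 𝓝 (0 : E), P s K b (x, Y x, W x) = 0) ∧
      (∀ᶠ x in 𝓝 (0 : E), X (Y x) = x) ∧ (∀ᶠ x in 𝓝 (0 : E), Z (W x) = x) ∧
      (∀ᶠ y in 𝓝 b, Y (X y) = y) ∧ (∀ᶠ z in 𝓝 (-b), W (Z z) = z) := by
  have hD := hasFDerivAt_P s K hb
  have hC := contDiffAt_P s K hb (n := ω)
  have h0 := P_base s K b
  obtain ⟨ψ₁, c₁, b₁, e₁⟩ := ift_aux (P s K b) (0, b, -b) hC _ hD (fun w hw => by
    have := PD_ker s hs hb K hK (0, w) hw (Or.inl rfl)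
    simpa using this) h0
  have hD12 : HasFDerivAt (P s K b ∘ sw12) ((PD s K b).comp sw12) (b, 0, -b) := by
    have h1 : HasFDerivAt (sw12 : E × E × E → E × E × E) sw12 (b, 0, -b) :=
      (sw12 (E := E)).hasFDerivAt
    have h2 : HasFDerivAt (P s K b) (PD s K b) (sw12 (b, 0, -b)) := by
      simpa [sw12_apply] using hD
    exact h2.comp _ h1
  have hD13 : HasFDerivAt (P s K b ∘ sw13) ((PD s K b).comp sw13) (-b, b, 0) := by
    have h1 : HasFDerivAt (sw13 : E × E × E → E × E × E) sw13 (-b, b, 0) :=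
      (sw13 (E := E)).hasFDerivAt
    have h2 : HasFDerivAt (P s K b) (PD s K b) (sw13 (-b, b, 0)) := by
      simpa [sw13_apply] using hD
    exact h2.comp _ h1
  obtain ⟨ψ₂, c₂, b₂, e₂⟩ := ift_aux (P s K b ∘ sw12) (b, 0, -b)
    (ContDiffAt.comp _ (by simpa [sw12_apply] using hC) (sw12 (E := E)).contDiff.contDiffAt) _ hD12
    (fun w hw => by
      have := PD_ker s hs hb K hK (sw12 (0, w)) hw (Or.inr (Or.inl rfl))
      simpa [sw12_apply, Prod.ext_iff] using this) (by simpa [sw12_apply] using h0)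
  obtain ⟨ψ₃, c₃, b₃, e₃⟩ := ift_aux (P s K b ∘ sw13) (-b, b, 0)
    (ContDiffAt.comp _ (by simpa [sw13_apply] using hC) (sw13 (E := E)).contDiff.contDiffAt) _ hD13
    (fun w hw => by
      have := PD_ker s hs hb K hK (sw13 (0, w)) hw (Or.inr (Or.inr rfl))
      simpa [sw13_apply, Prod.ext_iff, and_comm] using this) (by simpa [sw13_apply] using h0)
  simp only at b₁ b₂ b₃ c₁ c₂ c₃
  -- transport the equivalences to a neighbourhood of the base point
  have t₂ : Tendsto (sw12 : E × E × E → E × E × E) (𝓝 (0, b, -b)) (𝓝 (b, 0, -b)) := by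
    have := (sw12 (E := E)).continuous.tendsto (0, b, -b)
    simpa [sw12_apply] using this
  have t₃ : Tendsto (sw13 : E × E × E → E × E × E) (𝓝 (0, b, -b)) (𝓝 (-b, b, 0)) := by
    have := (sw13 (E := E)).continuous.tendsto (0, b, -b)
    simpa [sw13_apply] using this
  have e₂' : ∀ᶠ v : E × E × E in 𝓝 (0, b, -b), P s K b v = 0 ↔ ψ₂ v.2.1 = (v.1, v.2.2) := by
    filter_upwards [t₂.eventually e₂] with v hv
    simpa [sw12_apply] using hv
  have e₃' : ∀ᶠ v : E × E × E in 𝓝 (0, b, -b), P s K b v = 0 ↔ ψ₃ v.2.2 = (v.2.1, v.1) := by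
    filter_upwards [t₃.eventually e₃] with v hv
    simpa [sw13_apply] using hv
  have n₁ : Tendsto (fun x : E => (x, (ψ₁ x).1, (ψ₁ x).2)) (𝓝 0) (𝓝 (0, b, -b)) := by
    have h := c₁.continuousAt
    have : ContinuousAt (fun x : E => (x, (ψ₁ x).1, (ψ₁ x).2)) 0 :=
      continuousAt_id.prodMk (h.fst.prodMk h.snd)
    have h2 := this.tendsto
    simpa [b₁] using h2
  have n₂ : Tendsto (fun y : E => ((ψ₂ y).1, y, (ψ₂ y).2)) (𝓝 b) (𝓝 (0, b, -b)) := by
    have h := c₂.continuousAt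
    have : ContinuousAt (fun y : E => ((ψ₂ y).1, y, (ψ₂ y).2)) b :=
      h.fst.prodMk (continuousAt_id.prodMk h.snd)
    have h2 := this.tendsto
    simpa [b₂] using h2
  have n₃ : Tendsto (fun z : E => ((ψ₃ z).2, (ψ₃ z).1, z)) (𝓝 (-b)) (𝓝 (0, b, -b)) := by
    have h := c₃.continuousAt
    have : ContinuousAt (fun z : E => ((ψ₃ z).2, (ψ₃ z).1, z)) (-b) :=
      h.snd.prodMk (h.fst.prodMk continuousAt_id)
    have h2 := this.tendsto
    simpa [b₃] using h2
  refine ⟨fun x => (ψ₁ x).1, fun y => (ψ₂ y).1, fun x => (ψ₁ x).2, fun z => (ψ₃ z).2,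
    contDiff_fst.contDiffAt.comp _ c₁, contDiff_fst.contDiffAt.comp _ c₂,
    contDiff_snd.contDiffAt.comp _ c₁, contDiff_snd.contDiffAt.comp _ c₃,
    by simp [b₁], by simp [b₂], by simp [b₁], by simp [b₃], ?_, ?_, ?_, ?_, ?_⟩
  · filter_upwards [n₁.eventually e₁] with x hx
    exact hx.2 rfl
  · filter_upwards [n₁.eventually e₁, n₁.eventually e₂'] with x h1 h2
    rw [h2.1 (h1.2 rfl)]
  · filter_upwards [n₁.eventually e₁, n₁.eventually e₃'] with x h1 h2
    rw [h2.1 (h1.2 rfl)]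
  · filter_upwards [n₂.eventually e₂', n₂.eventually e₁] with y h1 h2
    rw [h2.1 (h1.2 rfl)]
  · filter_upwards [n₃.eventually e₃', n₃.eventually e₁] with y h1 h2
    rw [h2.1 (h1.2 rfl)]

/-- **L1**: the local structure theorem. -/
theorem local_structure {E : Type*} [NormedAddCommGroup E] [InnerProductSpace ℝ E]
    [FiniteDimensional ℝ E] [MeasurableSpace E] [BorelSpace E] (s : ℝ) (hs : 0 < s)
    (b : E) (hb : b ≠ 0) :
    ∃ r₀ > 0, ∃ K : ℝ, 0 ≤ K ∧ ∃ Y X W Z : E → E, ∃ φb φc : E → ℝ,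
      SmoothPair (ball (0 : E) r₀) Y X ∧ SmoothPair (ball (0 : E) r₀) W Z ∧
      Y 0 = b ∧ W 0 = -b ∧ φb b = 0 ∧ φc (-b) = 0 ∧
      ContinuousOn φb (Y '' ball 0 r₀) ∧ ContinuousOn φc (W '' ball 0 r₀) ∧
      (∀ x ∈ ball (0 : E) r₀, ∀ y ∈ Y '' ball 0 r₀, ∀ z ∈ W '' ball 0 r₀,
        c s 0 b (-b) - K * ‖x‖ ^ 2 + φb y + φc z ≤ c s x y z) ∧
      (∀ x ∈ ball (0 : E) r₀, ∀ y ∈ Y '' ball 0 r₀, ∀ z ∈ W '' ball 0 r₀,
        c s 0 b (-b) - K * ‖x‖ ^ 2 + φb y + φc z = c s x y z → y = Y x ∧ z = W x) ∧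
      (∀ x ∈ ball (0 : E) r₀,
        c s 0 b (-b) - K * ‖x‖ ^ 2 + φb (Y x) + φc (W x) = c s x (Y x) (W x)) := by
  have hb0 : 0 < ‖b‖ := norm_pos_iff.2 hb
  set κi : ℝ := 3 + 1 / (2 : ℝ) ^ (-s - 2) with hκi
  have hκi0 : 0 < κi := by
    have : (0 : ℝ) < 2 ^ (-s - 2) := Real.rpow_pos_of_pos (by norm_num) _
    positivity
  set M : ℝ := (‖b‖ / 2) ^ (-s - 2) with hM
  have hM0 : 0 < M := Real.rpow_pos_of_pos (by positivity) _
  set K : ℝ := ‖forceD s b‖ * κi + 3 * s * M + 1 with hK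
  have hK1 : ‖forceD s b‖ * κi < K := by have : 0 < 3 * s * M := by positivity
                                         linarith
  have hK2 : 0 < K / 2 - 3 / 2 * s * M := by
    have : 0 ≤ ‖forceD s b‖ * κi := by positivity
    linarith
  have hK0 : 0 < K := by
    have : 0 < 3 / 2 * s * M := by positivity
    linarith
  obtain ⟨Y, X, W, Z, cY, cX, cW, cZ, bY, bX, bW, bZ, eP, eXY, eZW, eYX, eWZ⟩ :=
    local_ift s hs hb K hK1
  obtain ⟨V₁, V₁o, V₁0, Y', X', hYX, hY', -⟩ := exists_smoothPair Y X 0 cY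
    (by rw [bY]; exact cX) eXY (by rw [bY]; exact eYX)
  obtain ⟨V₂, V₂o, V₂0, W', Z', hWZ, hW', -⟩ := exists_smoothPair W Z 0 cW
    (by rw [bW]; exact cZ) eZW (by rw [bW]; exact eWZ)
  have nY : ∀ᶠ x in 𝓝 (0 : E), ‖Y x - b‖ < ‖b‖ / 4 := by
    have h1 : ContinuousAt (fun x => ‖Y x - b‖) 0 := (cY.continuousAt.sub_const b).norm
    have h2 : ‖Y 0 - b‖ < ‖b‖ / 4 := by simp [bY, hb0]
    exact h1.eventually_lt_const h2
  have nW : ∀ᶠ x in 𝓝 (0 : E), ‖W x + b‖ < ‖b‖ / 4 := by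
    have h1 : ContinuousAt (fun x => ‖W x + b‖) 0 := (cW.continuousAt.add_const b).norm
    have h2 : ‖W 0 + b‖ < ‖b‖ / 4 := by simp [bW, hb0]
    exact h1.eventually_lt_const h2
  have n0 : ∀ᶠ x in 𝓝 (0 : E), ‖x‖ < ‖b‖ / 4 := by
    have h1 : ContinuousAt (fun x : E => ‖x‖) 0 := continuousAt_id.norm
    exact h1.eventually_lt_const (by simp [hb0])
  have all : ∀ᶠ x in 𝓝 (0 : E), x ∈ V₁ ∧ x ∈ V₂ ∧ P s K b (x, Y x, W x) = 0 ∧ ‖x‖ < ‖b‖ / 4 ∧
      ‖Y x - b‖ < ‖b‖ / 4 ∧ ‖W x + b‖ < ‖b‖ / 4 := by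
    filter_upwards [V₁o.mem_nhds V₁0, V₂o.mem_nhds V₂0, eP, n0, nY, nW] with x h1 h2 h3 h4 h5 h6
    exact ⟨h1, h2, h3, h4, h5, h6⟩
  obtain ⟨r₀, hr₀, hball⟩ := Metric.eventually_nhds_iff_ball.1 all
  have hsub₁ : ball (0 : E) r₀ ⊆ V₁ := fun x hx => (hball x hx).1
  have hsub₂ : ball (0 : E) r₀ ⊆ V₂ := fun x hx => (hball x hx).2.1
  have pY : SmoothPair (ball (0 : E) r₀) Y' X' := hYX.mono hsub₁ isOpen_ball
  have pW : SmoothPair (ball (0 : E) r₀) W' Z' := hWZ.mono hsub₂ isOpen_ball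
  have h00 : (0 : E) ∈ ball (0 : E) r₀ := mem_ball_self hr₀
  -- facts about points
  have fx : ∀ x ∈ ball (0 : E) r₀, ‖x‖ < ‖b‖ / 4 := fun x hx => (hball x hx).2.2.2.1
  have fy : ∀ y ∈ Y' '' ball (0 : E) r₀, ‖y - b‖ < ‖b‖ / 4 := by
    rintro _ ⟨x, hx, rfl⟩
    rw [hY' x (hsub₁ hx)]
    exact (hball x hx).2.2.2.2.1
  have fz : ∀ z ∈ W' '' ball (0 : E) r₀, ‖z + b‖ < ‖b‖ / 4 := by
    rintro _ ⟨x, hx, rfl⟩
    rw [hW' x (hsub₂ hx)]
    exact (hball x hx).2.2.2.2.2
  have dxy : ∀ x ∈ ball (0 : E) r₀, ∀ y ∈ Y' '' ball (0 : E) r₀, ‖b‖ / 2 ≤ ‖x - y‖ := by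
    intro x hx y hy
    have h1 := fx x hx
    have h2 := fy y hy
    have h3 : ‖b‖ ≤ ‖x - y‖ + ‖x‖ + ‖y - b‖ := by
      calc ‖b‖ = ‖-(x - y) + x - (y - b)‖ := by congr 1; abel
        _ ≤ ‖-(x - y) + x‖ + ‖y - b‖ := norm_sub_le _ _
        _ ≤ ‖-(x - y)‖ + ‖x‖ + ‖y - b‖ := by gcongr; exact norm_add_le _ _
        _ = _ := by rw [norm_neg]
    linarith
  have dxz : ∀ x ∈ ball (0 : E) r₀, ∀ z ∈ W' '' ball (0 : E) r₀, ‖b‖ / 2 ≤ ‖x - z‖ := by
    intro x hx z hz
    have h1 := fx x hx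
    have h2 := fz z hz
    have h3 : ‖b‖ ≤ ‖x - z‖ + ‖x‖ + ‖z + b‖ := by
      calc ‖b‖ = ‖(x - z) - x + (z + b)‖ := by congr 1; abel
        _ ≤ ‖(x - z) - x‖ + ‖z + b‖ := norm_add_le _ _
        _ ≤ ‖x - z‖ + ‖x‖ + ‖z + b‖ := by gcongr; exact norm_sub_le _ _
    linarith
  have dyz : ∀ y ∈ Y' '' ball (0 : E) r₀, ∀ z ∈ W' '' ball (0 : E) r₀, ‖b‖ / 2 ≤ ‖y - z‖ := by
    intro y hy z hz
    have h1 := fy y hy
    have h2 := fz z hz
    have h3 : ‖(2 : ℝ) • b‖ ≤ ‖y - z‖ + ‖y - b‖ + ‖z + b‖ := by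
      calc ‖(2 : ℝ) • b‖ = ‖(y - z) - (y - b) + (z + b)‖ := by congr 1; rw [two_smul]; abel
        _ ≤ ‖(y - z) - (y - b)‖ + ‖z + b‖ := norm_add_le _ _
        _ ≤ ‖y - z‖ + ‖y - b‖ + ‖z + b‖ := by gcongr; exact norm_sub_le _ _
    rw [norm_smul, Real.norm_ofNat] at h3
    linarith
  have ne_of : ∀ u v : E, ‖b‖ / 2 ≤ ‖u - v‖ → u ≠ v := by
    intro u v h huv
    rw [huv, sub_self, norm_zero] at h
    linarith
  have mY : ∀ x ∈ ball (0 : E) r₀, Y' x ∈ Y' '' ball (0 : E) r₀ := fun x hx => ⟨x, hx, rfl⟩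
  have mW : ∀ x ∈ ball (0 : E) r₀, W' x ∈ W' '' ball (0 : E) r₀ := fun x hx => ⟨x, hx, rfl⟩
  set G : E := force s b + force s ((2 : ℝ) • b) with hG
  set φb : E → ℝ := fun y => Q s K b (X' y) y (W' (X' y)) - c s 0 b (-b) with hφb
  set φc : E → ℝ := fun z => -(⟪G, z + b⟫ + K / 2 * ‖z + b‖ ^ 2) with hφc
  -- the main identity
  have id1 : ∀ x y z : E, c s x y z = Q s K b x y z - K / 2 * ‖x‖ ^ 2 + φc z := by
    intro x y z
    simp only [Q, hφc, ← hG]
    ring
  have bY' : Y' 0 = b := by rw [hY' 0 V₁0, bY]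
  have bW' : W' 0 = -b := by rw [hW' 0 V₂0, bW]
  have φbY : ∀ x ∈ ball (0 : E) r₀, φb (Y' x) = Q s K b x (Y' x) (W' x) - c s 0 b (-b) := by
    intro x hx
    simp only [hφb]
    rw [pY.left_inv x hx]
  -- key inequality
  have key : ∀ x ∈ ball (0 : E) r₀, ∀ x₁ ∈ ball (0 : E) r₀, ∀ z ∈ W' '' ball (0 : E) r₀,
      Q s K b x₁ (Y' x₁) (W' x₁) + (K / 2 - 3 / 2 * s * M) *
        (‖x - x₁‖ ^ 2 + ‖z - W' x₁‖ ^ 2) ≤ Q s K b x (Y' x₁) z := by
    intro x hx x₁ hx₁ z hz
    have hP : P s K b (x₁, Y' x₁, W' x₁) = 0 := by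
      rw [hY' x₁ (hsub₁ hx₁), hW' x₁ (hsub₂ hx₁)]
      exact (hball x₁ hx₁).2.2.1
    exact Q_ineq s K hs b x₁ (Y' x₁) (W' x₁) x z hP hb (dxy _ hx₁ _ (mY _ hx₁))
      (dxz _ hx₁ _ (mW _ hx₁)) (dyz _ (mY _ hx₁) _ (mW _ hx₁)) (ne_of _ _ (dxy _ hx _ (mY _ hx₁)))
      (ne_of _ _ (dxz _ hx _ hz)) (ne_of _ _ (dyz _ (mY _ hx₁) _ hz))
  refine ⟨r₀, hr₀, K / 2, by positivity, Y', X', W', Z', φb, φc, pY, pW, bY', bW',
    ?_, ?_, ?_, ?_, ?_, ?_, ?_⟩
  · -- φb b = 0
    have h := φbY 0 h00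
    rw [bY', bW'] at h
    rw [h]
    simp [Q]
  · simp [hφc]
  · -- continuity of φb
    have hX'c : ContinuousOn X' (Y' '' ball 0 r₀) := pY.smooth_symm.continuousOn
    have hX'm : ∀ y ∈ Y' '' ball (0 : E) r₀, X' y ∈ ball (0 : E) r₀ := by
      rintro _ ⟨x, hx, rfl⟩
      rw [pY.left_inv x hx]; exact hx
    have hW'c : ContinuousOn (fun y => W' (X' y)) (Y' '' ball 0 r₀) :=
      pW.smooth.continuousOn.comp hX'c (fun y hy => hX'm y hy)
    have pw : ∀ f : E → E, ContinuousOn f (Y' '' ball 0 r₀) →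
        (∀ y ∈ Y' '' ball (0 : E) r₀, f y ≠ 0) →
        ContinuousOn (fun y => ‖f y‖ ^ (-s)) (Y' '' ball 0 r₀) := fun f hf h =>
      hf.norm.rpow_const (fun y hy => Or.inl (by simpa using h y hy))
    have t1 : ContinuousOn (fun y => ‖X' y - y‖ ^ (-s)) (Y' '' ball 0 r₀) :=
      pw _ (hX'c.sub continuousOn_id) (fun y hy =>
        sub_ne_zero.2 (ne_of _ _ (dxy _ (hX'm y hy) _ hy)))
    have t2 : ContinuousOn (fun y => ‖X' y - W' (X' y)‖ ^ (-s)) (Y' '' ball 0 r₀) :=
      pw _ (hX'c.sub hW'c) (fun y hy =>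
        sub_ne_zero.2 (ne_of _ _ (dxz _ (hX'm y hy) _ (mW _ (hX'm y hy)))))
    have t3 : ContinuousOn (fun y => ‖y - W' (X' y)‖ ^ (-s)) (Y' '' ball 0 r₀) :=
      pw _ (continuousOn_id.sub hW'c) (fun y hy =>
        sub_ne_zero.2 (ne_of _ _ (dyz _ hy _ (mW _ (hX'm y hy)))))
    simp only [hφb, Q, c]
    refine ContinuousOn.sub (ContinuousOn.add (ContinuousOn.add (ContinuousOn.add
      ((t1.add t2).add t3) ?_) ?_) ?_) continuousOn_const
    · exact continuousOn_const.mul (hX'c.norm.pow 2)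
    · exact continuousOn_const.inner (hW'c.add continuousOn_const)
    · exact continuousOn_const.mul ((hW'c.add continuousOn_const).norm.pow 2)
  · simp only [hφc]
    fun_prop
  · -- inequality
    rintro x hx _ ⟨x₁, hx₁, rfl⟩ z hz
    have h := key x hx x₁ hx₁ z hz
    rw [id1 x (Y' x₁) z, φbY x₁ hx₁]
    have : 0 ≤ (K / 2 - 3 / 2 * s * M) * (‖x - x₁‖ ^ 2 + ‖z - W' x₁‖ ^ 2) := by positivity
    linarith
  · -- equality
    rintro x hx _ ⟨x₁, hx₁, rfl⟩ z hz heq
    have h := key x hx x₁ hx₁ z hz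
    rw [id1 x (Y' x₁) z, φbY x₁ hx₁] at heq
    have h2 : (K / 2 - 3 / 2 * s * M) * (‖x - x₁‖ ^ 2 + ‖z - W' x₁‖ ^ 2) ≤ 0 := by linarith
    have h3 : ‖x - x₁‖ ^ 2 + ‖z - W' x₁‖ ^ 2 ≤ 0 := by
      by_contra hcon
      push Not at hcon
      have := mul_pos hK2 hcon
      linarith
    have h4 : ‖x - x₁‖ ^ 2 = 0 := by
      have := sq_nonneg ‖x - x₁‖; have := sq_nonneg ‖z - W' x₁‖; linarith
    have h5 : ‖z - W' x₁‖ ^ 2 = 0 := by
      have := sq_nonneg ‖x - x₁‖; have := sq_nonneg ‖z - W' x₁‖; linarith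
    have h6 : x = x₁ := by
      rw [← sub_eq_zero, ← norm_eq_zero]; exact pow_eq_zero_iff (two_ne_zero) |>.1 h4
    have h7 : z = W' x₁ := by
      rw [← sub_eq_zero, ← norm_eq_zero]; exact pow_eq_zero_iff (two_ne_zero) |>.1 h5
    rw [h6]
    exact ⟨rfl, h7⟩
  · intro x hx
    rw [id1 x (Y' x) (W' x), φbY x hx]
    ring

end Crest.Agent.R130
end

-- ▼ part R130/Cost
section

/-!
# Elementary facts about the pair and triple cost
-/

set_option autoImplicit false

open MeasureTheory Metric Set Filter Topology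
open scoped ENNReal
open Crest.AnalysisR.OT

namespace Crest.Agent.R130

variable {E : Type*} [NormedAddCommGroup E]

theorem pairCost_comm (s : ℝ) (x y : E) : pairCost s x y = pairCost s y x := by
  unfold pairCost; rw [norm_sub_rev]

theorem pairCost_self {s : ℝ} (hs : 0 < s) (x : E) : pairCost s x x = ⊤ := by
  unfold pairCost
  rw [sub_self, norm_zero, ENNReal.ofReal_zero, ENNReal.zero_rpow_of_neg (by linarith)]

theorem pairCost_of_ne (s : ℝ) {x y : E} (h : x ≠ y) :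
    pairCost s x y = ENNReal.ofReal (‖x - y‖ ^ (-s)) := by
  unfold pairCost
  rw [ENNReal.ofReal_rpow_of_pos (norm_pos_iff.2 (sub_ne_zero.2 h))]

theorem continuous_pairCost (s : ℝ) : Continuous fun p : E × E => pairCost s p.1 p.2 := by
  unfold pairCost
  exact ENNReal.continuous_rpow_const.comp
    (ENNReal.continuous_ofReal.comp (continuous_fst.sub continuous_snd).norm)

theorem continuous_tripleCost (s : ℝ) : Continuous fun p : E × E × E => tripleCost s p := by
  unfold tripleCost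
  exact (((continuous_pairCost s).comp
    (continuous_fst.prodMk (continuous_fst.comp continuous_snd))).add
    ((continuous_pairCost s).comp
    (continuous_fst.prodMk (continuous_snd.comp continuous_snd)))).add
    ((continuous_pairCost s).comp
    ((continuous_fst.comp continuous_snd).prodMk (continuous_snd.comp continuous_snd)))

theorem tripleCost_swap12 (s : ℝ) (x y z : E) :
    tripleCost s (x, y, z) = tripleCost s (y, x, z) := by
  unfold tripleCost
  simp only
  rw [pairCost_comm s x y]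
  ring

theorem tripleCost_swap23 (s : ℝ) (x y z : E) :
    tripleCost s (x, y, z) = tripleCost s (x, z, y) := by
  unfold tripleCost
  simp only
  rw [pairCost_comm s y z]
  ring

theorem tripleCost_of_ne (s : ℝ) {x y z : E} (hxy : x ≠ y) (hxz : x ≠ z) (hyz : y ≠ z) :
    tripleCost s (x, y, z) = ENNReal.ofReal (c s x y z) := by
  unfold tripleCost c
  simp only
  rw [pairCost_of_ne s hxy, pairCost_of_ne s hxz, pairCost_of_ne s hyz,
    ← ENNReal.ofReal_add (by positivity) (by positivity),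
    ← ENNReal.ofReal_add (by positivity) (by positivity)]

theorem tripleCost_eq_top {s : ℝ} (hs : 0 < s) {x y z : E} (h : x = y ∨ x = z ∨ y = z) :
    tripleCost s (x, y, z) = ⊤ := by
  unfold tripleCost
  simp only
  rcases h with rfl | rfl | rfl
  · rw [pairCost_self hs]; simp
  · rw [pairCost_self hs]; simp
  · rw [pairCost_self hs]; simp

end Crest.Agent.R130
end

-- ▼ part R130/Cert

/-!
# L4: the certificate (five clusters), from the local structure L1
-/

set_option autoImplicit false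

open MeasureTheory Metric Set Filter Topology
open scoped ENNReal ContDiff
open Crest.AnalysisR.OT

namespace Crest.Agent.R130

section SmoothPair

variable {E : Type*} [NormedAddCommGroup E] [NormedSpace ℝ E] [MeasurableSpace E]

theorem SmoothPair.mono_cert {U V : Set E} {Y X : E → E} (h : SmoothPair U Y X) (hV : IsOpen V)
    (hVU : V ⊆ U) : SmoothPair V Y X where
  isOpen_source := hV
  isOpen_target := by
    have h1 : Y '' V = Y '' U ∩ X ⁻¹' V := by
      ext y
      constructor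
      · rintro ⟨x, hx, rfl⟩
        exact ⟨⟨x, hVU hx, rfl⟩, by rw [mem_preimage, h.left_inv x (hVU hx)]; exact hx⟩
      · rintro ⟨⟨x, hx, rfl⟩, hx'⟩
        rw [mem_preimage, h.left_inv x hx] at hx'
        exact ⟨x, hx', rfl⟩
    rw [h1]
    exact h.smooth_symm.continuousOn.isOpen_inter_preimage h.isOpen_target hV
  smooth := h.smooth.mono hVU
  smooth_symm := h.smooth_symm.mono (image_mono hVU)
  left_inv := fun x hx => h.left_inv x (hVU hx)
  measurable := h.measurable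
  measurable_symm := h.measurable_symm

theorem SmoothPair.conj_cert [BorelSpace E] {U : Set E} {Y X : E → E} (h : SmoothPair U Y X)
    (τ : E ≃ₗᵢ[ℝ] E) :
    SmoothPair (τ '' U) (fun x => τ (Y (τ.symm x))) (fun x => τ (X (τ.symm x))) where
  isOpen_source := τ.toHomeomorph.isOpenMap _ h.isOpen_source
  isOpen_target := by
    have h1 : (fun x => τ (Y (τ.symm x))) '' (τ '' U) = τ '' (Y '' U) := by
      rw [image_image, image_image]
      simp
    rw [h1]
    exact τ.toHomeomorph.isOpenMap _ h.isOpen_target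
  smooth := by
    refine τ.contDiff.comp_contDiffOn (h.smooth.comp τ.symm.contDiff.contDiffOn ?_)
    rintro _ ⟨x, hx, rfl⟩
    simpa using hx
  smooth_symm := by
    refine τ.contDiff.comp_contDiffOn (h.smooth_symm.comp τ.symm.contDiff.contDiffOn ?_)
    rintro _ ⟨_, ⟨x, hx, rfl⟩, rfl⟩
    simp only [LinearIsometryEquiv.symm_apply_apply]
    exact ⟨x, hx, rfl⟩
  left_inv := by
    rintro _ ⟨x, hx, rfl⟩
    simp [h.left_inv x hx]
  measurable := τ.continuous.measurable.comp (h.measurable.comp τ.symm.continuous.measurable)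
  measurable_symm :=
    τ.continuous.measurable.comp (h.measurable_symm.comp τ.symm.continuous.measurable)

end SmoothPair

section Main

/-- The five clusters. `Y 0, Y 1` are the two first branches, `W 0, W 1` the second ones. -/
def N {E : Type*} (A : Set E) (Y W : Fin 2 → E → E) : Set E :=
  A ∪ (⋃ i, Y i '' A) ∪ (⋃ i, W i '' A)

variable {E : Type*} [NormedAddCommGroup E] [InnerProductSpace ℝ E]

/-- The two symmetries: identity and `σ`. -/
def tw (σ : E ≃ₗᵢ[ℝ] E) (i : Fin 2) : E ≃ₗᵢ[ℝ] E := if i = 0 then LinearIsometryEquiv.refl ℝ E else σ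

/-- The five cluster labels. -/
abbrev Lab := Option (Fin 2 × Bool)

/-- Parametrisation of the clusters by a ball around `0`. -/
def par (σ : E ≃ₗᵢ[ℝ] E) (Y W : E → E) : Lab → E → E
  | none => fun t => t
  | some (i, true) => fun t => tw σ i (Y ((tw σ i).symm t))
  | some (i, false) => fun t => tw σ i (W ((tw σ i).symm t))

/-- Centres of the clusters. -/
def ctr (σ : E ≃ₗᵢ[ℝ] E) (b : E) : Lab → E
  | none => 0
  | some (i, true) => tw σ i b
  | some (i, false) => -tw σ i b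

/-- Real valued potentials, one function on space for each label. -/
noncomputable def pot (s : ℝ) (σ : E ≃ₗᵢ[ℝ] E) (b : E) (K : ℝ) (φb φc : E → ℝ) : Lab → E → ℝ
  | none => fun x => 2 * ‖b‖ ^ (-s) - K * ‖x‖ ^ 2
  | some (i, true) => fun y => ‖b + b‖ ^ (-s) / 2 + φb ((tw σ i).symm y)
  | some (i, false) => fun z => ‖b + b‖ ^ (-s) / 2 + φc ((tw σ i).symm z)

/-- Values of the potentials at the centres. -/
noncomputable def val (s : ℝ) (b : E) : Lab → ℝ
  | none => 2 * ‖b‖ ^ (-s)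
  | some _ => ‖b + b‖ ^ (-s) / 2

/-- Good triples of labels -/
def Good (i j k : Lab) : Prop :=
  ∃ a, (i = none ∧ j = some (a, true) ∧ k = some (a, false)) ∨
    (i = none ∧ k = some (a, true) ∧ j = some (a, false)) ∨
    (j = none ∧ i = some (a, true) ∧ k = some (a, false)) ∨
    (j = none ∧ k = some (a, true) ∧ i = some (a, false)) ∨
    (k = none ∧ i = some (a, true) ∧ j = some (a, false)) ∨
    (k = none ∧ j = some (a, true) ∧ i = some (a, false))

theorem tw_norm (σ : E ≃ₗᵢ[ℝ] E) (i : Fin 2) (b : E) : ‖tw σ i b‖ = ‖b‖ := by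
  simp

/-- strict triangle inequality used for the gap -/
theorem norm_sub_lt_of_norm_eq {u v : E} (h : ‖u‖ = ‖v‖) (hne : u ≠ -v) :
    ‖u - v‖ < ‖v + v‖ := by
  have h1 : ‖u - v‖ ^ 2 + ‖u + v‖ ^ 2 = 2 * ‖u‖ ^ 2 + 2 * ‖v‖ ^ 2 := by
    have := parallelogram_law_with_norm ℝ u v
    nlinarith [this]
  have h2 : 0 < ‖u + v‖ := by
    rw [norm_pos_iff]
    intro h3
    exact hne (eq_neg_of_add_eq_zero_left h3)
  have h3 : ‖v + v‖ = 2 * ‖v‖ := by
    rw [← two_smul ℝ v, norm_smul]; simp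
  rw [h3]
  rw [h] at h1
  nlinarith [norm_nonneg (u - v), norm_nonneg v]

omit [InnerProductSpace ℝ E] in
theorem pairCost_lower {s : ℝ} (hs : 0 < s) {x y : E} {R : ℝ} (h : ‖x - y‖ ≤ R) :
    ENNReal.ofReal (R ^ (-s)) ≤ pairCost s x y := by
  rcases eq_or_ne x y with rfl | hne
  · rw [pairCost_self hs]; exact le_top
  · rw [pairCost_of_ne s hne]
    have h0 : 0 < ‖x - y‖ := norm_pos_iff.2 (sub_ne_zero.2 hne)
    exact ENNReal.ofReal_le_ofReal (Real.rpow_le_rpow_of_nonpos h0 h (by linarith))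

omit [InnerProductSpace ℝ E] in
theorem pairCost_lower_strict {s : ℝ} (hs : 0 < s) {x y : E} {R : ℝ}
    (h : ‖x - y‖ < R) :
    ENNReal.ofReal (R ^ (-s)) < pairCost s x y := by
  rcases eq_or_ne x y with rfl | hne
  · rw [pairCost_self hs]; exact ENNReal.ofReal_lt_top
  · rw [pairCost_of_ne s hne]
    have h0 : 0 < ‖x - y‖ := norm_pos_iff.2 (sub_ne_zero.2 hne)
    rw [ENNReal.ofReal_lt_ofReal_iff (by positivity)]
    exact Real.rpow_lt_rpow_of_neg h0 h (by linarith)

theorem norm_ctr_some (σ : E ≃ₗᵢ[ℝ] E) (b : E) (p : Fin 2 × Bool) :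
    ‖ctr σ b (some p)‖ = ‖b‖ := by
  rcases p with ⟨i, β⟩
  cases β <;> simp [ctr]

theorem ctr_ne_neg (σ : E ≃ₗᵢ[ℝ] E) (b : E) (h1 : σ b ≠ b) (h2 : σ b ≠ -b)
    {a a' : Fin 2} (h : a ≠ a') (β β' : Bool) :
    ctr σ b (some (a, β)) ≠ -ctr σ b (some (a', β')) := by
  have h3 : b ≠ -σ b := fun h => h2 (by
    rw [eq_neg_iff_add_eq_zero] at h ⊢
    rw [add_comm]; exact h)
  fin_cases a <;> fin_cases a' <;> simp at h <;> cases β <;> cases β' <;>
    simp [ctr, tw, h1, h1.symm, h2, h3]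
  all_goals first
    | exact fun h => h2 h.symm
    | exact fun h => h3 h.symm

theorem norm_add_self_eq (b : E) : ‖b + b‖ = 2 * ‖b‖ := by
  rw [← two_smul ℝ b, norm_smul]; simp

/-- Gap for triples consisting of the centre and two non antipodal clusters. -/
theorem gap_one {s : ℝ} (hs : 0 < s) (σ : E ≃ₗᵢ[ℝ] E) {b : E} (hb : b ≠ 0) (h1 : σ b ≠ b)
    (h2 : σ b ≠ -b) {a a' : Fin 2} (h : a ≠ a') (β β' : Bool) :
    ENNReal.ofReal (val s b none) + ENNReal.ofReal (val s b (some (a, β))) +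
      ENNReal.ofReal (val s b (some (a', β'))) <
      tripleCost s (ctr σ b none, ctr σ b (some (a, β)), ctr σ b (some (a', β'))) := by
  have hb0 : 0 < ‖b‖ := norm_pos_iff.2 hb
  set u := ctr σ b (some (a, β)) with hu
  set v := ctr σ b (some (a', β')) with hv
  have hun : ‖u‖ = ‖b‖ := norm_ctr_some σ b _
  have hvn : ‖v‖ = ‖b‖ := norm_ctr_some σ b _
  have huv : u ≠ -v := ctr_ne_neg σ b h1 h2 h β β'
  have h0u : (0 : E) ≠ u := by
    intro h0; rw [← h0, norm_zero] at hun; exact hb0.ne hun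
  have h0v : (0 : E) ≠ v := by
    intro h0; rw [← h0, norm_zero] at hvn; exact hb0.ne hvn
  have hlt : ‖u - v‖ < ‖b + b‖ := by
    have := norm_sub_lt_of_norm_eq (hun.trans hvn.symm) huv
    rw [norm_add_self_eq, hvn] at this
    rw [norm_add_self_eq]; exact this
  have hpos : (0 : ℝ) ≤ ‖b + b‖ ^ (-s) := by positivity
  have hpos' : (0 : ℝ) ≤ ‖b‖ ^ (-s) := by positivity
  have hL : ENNReal.ofReal (val s b none) + ENNReal.ofReal (val s b (some (a, β))) +
      ENNReal.ofReal (val s b (some (a', β'))) =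
      ENNReal.ofReal (‖b‖ ^ (-s)) + ENNReal.ofReal (‖b‖ ^ (-s)) + ENNReal.ofReal (‖b + b‖ ^ (-s)) := by
    simp only [val]
    rw [← ENNReal.ofReal_add (by positivity) (by positivity),
      ← ENNReal.ofReal_add (by positivity) (by positivity),
      ← ENNReal.ofReal_add (by positivity) (by positivity),
      ← ENNReal.ofReal_add (by positivity) (by positivity)]
    congr 1; ring
  rw [hL]
  simp only [tripleCost, ctr]
  rw [pairCost_of_ne s h0u, pairCost_of_ne s h0v, zero_sub, norm_neg, zero_sub, norm_neg, hun, hvn]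
  exact ENNReal.add_lt_add_left (by simp) (pairCost_lower_strict hs hlt)

/-- Gap for triples avoiding the central cluster. -/
theorem gap_none {s : ℝ} (hs : 0 < s) (σ : E ≃ₗᵢ[ℝ] E) {b : E} (hb : b ≠ 0)
    (p q r : Fin 2 × Bool) :
    ENNReal.ofReal (val s b (some p)) + ENNReal.ofReal (val s b (some q)) +
      ENNReal.ofReal (val s b (some r)) <
      tripleCost s (ctr σ b (some p), ctr σ b (some q), ctr σ b (some r)) := by
  have hb0 : 0 < ‖b‖ := norm_pos_iff.2 hb
  have hbb0 : 0 < ‖b + b‖ := by rw [norm_add_self_eq]; positivity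
  have hle : ∀ p q : Fin 2 × Bool, ‖ctr σ b (some p) - ctr σ b (some q)‖ ≤ ‖b + b‖ := by
    intro p q
    refine (norm_sub_le _ _).trans ?_
    rw [norm_ctr_some, norm_ctr_some, norm_add_self_eq]; linarith
  have hp : (0 : ℝ) < ‖b + b‖ ^ (-s) := by positivity
  have hL : ENNReal.ofReal (val s b (some p)) + ENNReal.ofReal (val s b (some q)) +
      ENNReal.ofReal (val s b (some r)) =
      ENNReal.ofReal (‖b + b‖ ^ (-s) + ‖b + b‖ ^ (-s) / 2) := by
    simp only [val]
    rw [← ENNReal.ofReal_add (by positivity) (by positivity),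
      ← ENNReal.ofReal_add (by positivity) (by positivity)]
    congr 1; ring
  rw [hL]
  refine lt_of_lt_of_le ?_ (add_le_add (add_le_add (pairCost_lower hs (hle p q))
    (pairCost_lower hs (hle p r))) (pairCost_lower hs (hle q r)))
  rw [← ENNReal.ofReal_add (by positivity) (by positivity),
      ← ENNReal.ofReal_add (by positivity) (by positivity),
      ENNReal.ofReal_lt_ofReal_iff (by positivity)]
  linarith

theorem good_of {a : Fin 2} {β β' : Bool} (h : β ≠ β') :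
    Good none (some (a, β)) (some (a, β')) ∧ Good (some (a, β)) none (some (a, β')) ∧
    Good (some (a, β)) (some (a, β')) none := by
  cases β <;> cases β' <;> simp_all [Good]

omit [InnerProductSpace ℝ E] in
theorem val_nonneg (s : ℝ) (b : E) (i : Lab) : 0 ≤ val s b i := by
  cases i <;> simp only [val] <;> positivity

/-- The gap at the cluster centres. -/
theorem gap {s : ℝ} (hs : 0 < s) (σ : E ≃ₗᵢ[ℝ] E) {b : E} (hb : b ≠ 0) (h1 : σ b ≠ b)
    (h2 : σ b ≠ -b) (i j k : Lab) (hg : ¬ Good i j k) :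
    ENNReal.ofReal (val s b i) + ENNReal.ofReal (val s b j) + ENNReal.ofReal (val s b k) <
      tripleCost s (ctr σ b i, ctr σ b j, ctr σ b k) := by
  by_cases hd : i = j ∨ i = k ∨ j = k
  · rw [tripleCost_eq_top hs (by
      rcases hd with rfl | rfl | rfl
      · left; rfl
      · right; left; rfl
      · right; right; rfl)]
    rw [← ENNReal.ofReal_add (val_nonneg s b _) (val_nonneg s b _),
      ← ENNReal.ofReal_add (add_nonneg (val_nonneg s b _) (val_nonneg s b _)) (val_nonneg s b _)]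
    exact ENNReal.ofReal_lt_top
  push Not at hd
  obtain ⟨hij, hik, hjk⟩ := hd
  rcases i with _ | p
  · rcases j with _ | q
    · exact absurd rfl hij
    rcases k with _ | r
    · exact absurd rfl hik
    obtain ⟨a, β⟩ := q
    obtain ⟨a', β'⟩ := r
    rcases eq_or_ne a a' with rfl | haa
    · exact absurd (good_of (a := a) (β := β) (β' := β') (fun h => hjk (by rw [h]))).1 hg
    · exact gap_one hs σ hb h1 h2 haa β β'
  rcases j with _ | q
  · rcases k with _ | r
    · exact absurd rfl hjk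
    obtain ⟨a, β⟩ := p
    obtain ⟨a', β'⟩ := r
    rcases eq_or_ne a a' with rfl | haa
    · exact absurd (good_of (a := a) (β := β) (β' := β') (fun h => hik (by rw [h]))).2.1 hg
    · have := gap_one hs σ hb h1 h2 haa β β'
      rw [tripleCost_swap12, add_comm (ENNReal.ofReal (val s b none))] at this
      exact this
  rcases k with _ | r
  · obtain ⟨a, β⟩ := p
    obtain ⟨a', β'⟩ := q
    rcases eq_or_ne a a' with rfl | haa
    · exact absurd (good_of (a := a) (β := β) (β' := β') (fun h => hij (by rw [h]))).2.2 hg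
    · have := gap_one hs σ hb h1 h2 haa β β'
      rw [tripleCost_swap12, tripleCost_swap23, add_assoc,
        add_comm (ENNReal.ofReal (val s b none))] at this
      exact this
  exact gap_none hs σ hb p q r

/-- The local data furnished by L1. -/
structure LocalData [MeasurableSpace E] (s : ℝ) (b : E) (r₀ K : ℝ) (Y X W Z : E → E)
    (φb φc : E → ℝ) : Prop where
  r₀_pos : 0 < r₀
  hY : SmoothPair (ball (0 : E) r₀) Y X
  hW : SmoothPair (ball (0 : E) r₀) W Z
  hY0 : Y 0 = b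
  hW0 : W 0 = -b
  hφb : φb b = 0
  hφc : φc (-b) = 0
  hcb : ContinuousOn φb (Y '' ball 0 r₀)
  hcc : ContinuousOn φc (W '' ball 0 r₀)
  ineq : ∀ x ∈ ball (0 : E) r₀, ∀ y ∈ Y '' ball 0 r₀, ∀ z ∈ W '' ball 0 r₀,
    c s 0 b (-b) - K * ‖x‖ ^ 2 + φb y + φc z ≤ c s x y z
  ineq_eq : ∀ x ∈ ball (0 : E) r₀, ∀ y ∈ Y '' ball 0 r₀, ∀ z ∈ W '' ball 0 r₀,
    c s 0 b (-b) - K * ‖x‖ ^ 2 + φb y + φc z = c s x y z → y = Y x ∧ z = W x
  eq : ∀ x ∈ ball (0 : E) r₀,
    c s 0 b (-b) - K * ‖x‖ ^ 2 + φb (Y x) + φc (W x) = c s x (Y x) (W x)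

variable [MeasurableSpace E]

omit [InnerProductSpace ℝ E] [MeasurableSpace E] in
theorem LocalData.c_zero {s : ℝ} {b : E} : c s 0 b (-b) = 2 * ‖b‖ ^ (-s) + ‖b + b‖ ^ (-s) := by
  unfold c
  rw [zero_sub, zero_sub, norm_neg, neg_neg, sub_neg_eq_add]; ring

omit [MeasurableSpace E] in
theorem c_isom (s : ℝ) (τ : E ≃ₗᵢ[ℝ] E) (x y z : E) : c s (τ x) (τ y) (τ z) = c s x y z := by
  unfold c
  rw [← map_sub, ← map_sub, ← map_sub, τ.norm_map, τ.norm_map, τ.norm_map]

theorem LocalData.continuousAt_par {s : ℝ} {b : E} {r₀ K : ℝ} {Y X W Z : E → E} {φb φc : E → ℝ}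
    (L : LocalData s b r₀ K Y X W Z φb φc) (σ : E ≃ₗᵢ[ℝ] E) (i : Lab) :
    Tendsto (par σ Y W i) (𝓝 0) (𝓝 (ctr σ b i)) := by
  have h0 : (0 : E) ∈ ball (0 : E) r₀ := mem_ball_self L.r₀_pos
  have hYc : ContinuousAt Y 0 := (L.hY.smooth.continuousOn).continuousAt (isOpen_ball.mem_nhds h0)
  have hWc : ContinuousAt W 0 := (L.hW.smooth.continuousOn).continuousAt (isOpen_ball.mem_nhds h0)
  have hYt : Tendsto Y (𝓝 0) (𝓝 b) := by simpa [ContinuousAt, L.hY0] using hYc
  have hWt : Tendsto W (𝓝 0) (𝓝 (-b)) := by simpa [ContinuousAt, L.hW0] using hWc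
  rcases i with _ | ⟨a, β⟩
  · exact tendsto_id
  have hs : Tendsto (tw σ a).symm (𝓝 0) (𝓝 0) := by
    simpa using (tw σ a).symm.continuous.tendsto 0
  cases β
  · have := ((tw σ a).continuous.tendsto (-b)).comp (hWt.comp hs)
    simpa [ctr] using! this
  · exact ((tw σ a).continuous.tendsto b).comp (hYt.comp hs)

theorem LocalData.continuousAt_pot {s : ℝ} {b : E} {r₀ K : ℝ} {Y X W Z : E → E} {φb φc : E → ℝ}
    (L : LocalData s b r₀ K Y X W Z φb φc) (σ : E ≃ₗᵢ[ℝ] E) (i : Lab) :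
    Tendsto (fun t => pot s σ b K φb φc i (par σ Y W i t)) (𝓝 0) (𝓝 (val s b i)) := by
  have h0 : (0 : E) ∈ ball (0 : E) r₀ := mem_ball_self L.r₀_pos
  have hYc : ContinuousAt Y 0 := (L.hY.smooth.continuousOn).continuousAt (isOpen_ball.mem_nhds h0)
  have hWc : ContinuousAt W 0 := (L.hW.smooth.continuousOn).continuousAt (isOpen_ball.mem_nhds h0)
  have hYt : Tendsto Y (𝓝 0) (𝓝 b) := by simpa [ContinuousAt, L.hY0] using hYc
  have hWt : Tendsto W (𝓝 0) (𝓝 (-b)) := by simpa [ContinuousAt, L.hW0] using hWc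
  have hbt : Tendsto φb (𝓝 b) (𝓝 0) := by
    have h1 : b ∈ Y '' ball 0 r₀ := ⟨0, h0, L.hY0⟩
    have := L.hcb.continuousAt (L.hY.isOpen_target.mem_nhds h1)
    rw [← L.hφb]; exact this
  have hct : Tendsto φc (𝓝 (-b)) (𝓝 0) := by
    have h1 : -b ∈ W '' ball 0 r₀ := ⟨0, h0, L.hW0⟩
    have := L.hcc.continuousAt (L.hW.isOpen_target.mem_nhds h1)
    rw [← L.hφc]; exact this
  rcases i with _ | ⟨a, β⟩
  · have h1 : Tendsto (fun t : E => 2 * ‖b‖ ^ (-s) - K * ‖t‖ ^ 2) (𝓝 0)
        (𝓝 (2 * ‖b‖ ^ (-s) - K * ‖(0 : E)‖ ^ 2)) :=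
      Continuous.tendsto (by fun_prop) 0
    simpa [pot, par, val] using h1
  have hs : Tendsto (tw σ a).symm (𝓝 0) (𝓝 0) := by
    simpa using (tw σ a).symm.continuous.tendsto 0
  cases β
  · have := (hct.comp (hWt.comp hs)).const_add (‖b + b‖ ^ (-s) / 2)
    simpa [pot, par, val, Function.comp_def] using this
  · have := (hbt.comp (hYt.comp hs)).const_add (‖b + b‖ ^ (-s) / 2)
    simpa [pot, par, val, Function.comp_def] using this

/-- The clusters. -/
def cl (σ : E ≃ₗᵢ[ℝ] E) (Y W : E → E) (r : ℝ) (i : Lab) : Set E := par σ Y W i '' ball 0 r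

/-- Properties of a small radius. -/
structure SmallRadius (s : ℝ) (b : E) (r₀ K : ℝ) (Y W : E → E) (φb φc : E → ℝ)
    (σ : E ≃ₗᵢ[ℝ] E) (r : ℝ) : Prop where
  pos : 0 < r
  le : r ≤ r₀
  gap : ∀ i j k, ¬ Good i j k → ∀ x ∈ cl σ Y W r i, ∀ y ∈ cl σ Y W r j, ∀ z ∈ cl σ Y W r k,
    ENNReal.ofReal (pot s σ b K φb φc i x) + ENNReal.ofReal (pot s σ b K φb φc j y) +
      ENNReal.ofReal (pot s σ b K φb φc k z) < tripleCost s (x, y, z)
  pot_pos : ∀ i, ∀ x ∈ cl σ Y W r i, 0 < pot s σ b K φb φc i x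
  pot_lt : ∀ i, ∀ x ∈ cl σ Y W r i, pot s σ b K φb φc i x < val s b i + 1
  disj : ∀ i j, i ≠ j → Disjoint (cl σ Y W r i) (cl σ Y W r j)

theorem LocalData.exists_small {s : ℝ} (hs : 0 < s) {b : E} (hb : b ≠ 0) {r₀ K : ℝ}
    {Y X W Z : E → E} {φb φc : E → ℝ} (L : LocalData s b r₀ K Y X W Z φb φc) (σ : E ≃ₗᵢ[ℝ] E)
    (h1 : σ b ≠ b) (h2 : σ b ≠ -b) :
    ∃ r, SmallRadius s b r₀ K Y W φb φc σ r := by
  -- the gap
  have e1 : ∀ᶠ t in 𝓝 (0 : E × E × E), ∀ i j k, ¬ Good i j k →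
      ENNReal.ofReal (pot s σ b K φb φc i (par σ Y W i t.1)) +
      ENNReal.ofReal (pot s σ b K φb φc j (par σ Y W j t.2.1)) +
      ENNReal.ofReal (pot s σ b K φb φc k (par σ Y W k t.2.2)) <
      tripleCost s (par σ Y W i t.1, par σ Y W j t.2.1, par σ Y W k t.2.2) := by
    rw [eventually_all]; intro i
    rw [eventually_all]; intro j
    rw [eventually_all]; intro k
    rw [eventually_all]; intro hg
    have t1 : Tendsto (fun t : E × E × E => t.1) (𝓝 0) (𝓝 0) := continuous_fst.tendsto 0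
    have t2 : Tendsto (fun t : E × E × E => t.2.1) (𝓝 0) (𝓝 0) :=
      (continuous_fst.comp continuous_snd).tendsto 0
    have t3 : Tendsto (fun t : E × E × E => t.2.2) (𝓝 0) (𝓝 0) :=
      (continuous_snd.comp continuous_snd).tendsto 0
    have f1 := (ENNReal.continuous_ofReal.tendsto _).comp ((L.continuousAt_pot σ i).comp t1)
    have f2 := (ENNReal.continuous_ofReal.tendsto _).comp ((L.continuousAt_pot σ j).comp t2)
    have f3 := (ENNReal.continuous_ofReal.tendsto _).comp ((L.continuousAt_pot σ k).comp t3)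
    have g1 := (L.continuousAt_par σ i).comp t1
    have g2 := (L.continuousAt_par σ j).comp t2
    have g3 := (L.continuousAt_par σ k).comp t3
    have g := ((continuous_tripleCost s).tendsto (ctr σ b i, ctr σ b j, ctr σ b k)).comp
      (g1.prodMk_nhds (g2.prodMk_nhds g3))
    exact ((f1.add f2).add f3).eventually_lt g (gap hs σ hb h1 h2 i j k hg)
  have e2 : ∀ᶠ t in 𝓝 (0 : E), ∀ i, 0 < pot s σ b K φb φc i (par σ Y W i t) ∧
      pot s σ b K φb φc i (par σ Y W i t) < val s b i + 1 := by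
    rw [eventually_all]; intro i
    have hb0 : 0 < ‖b‖ := norm_pos_iff.2 hb
    have hbb0 : 0 < ‖b + b‖ := by rw [norm_add_self_eq]; positivity
    have hv : 0 < val s b i := by
      cases i <;> simp only [val] <;> positivity
    exact ((L.continuousAt_pot σ i).eventually (lt_mem_nhds hv)).and
      ((L.continuousAt_pot σ i).eventually (gt_mem_nhds (lt_add_one _)))
  have hctr : ∀ i j, i ≠ j → ctr σ b i ≠ ctr σ b j := by
    have hb0 : 0 < ‖b‖ := norm_pos_iff.2 hb
    have key0 : ∀ p, ctr σ b none ≠ ctr σ b (some p) := by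
      intro p hp
      have := norm_ctr_some σ b p
      rw [← hp] at this
      simp only [ctr, norm_zero] at this
      exact hb0.ne this
    intro i j hij
    rcases i with _ | p
    · rcases j with _ | q
      · exact absurd rfl hij
      · exact key0 q
    rcases j with _ | q
    · exact (key0 p).symm
    obtain ⟨a, β⟩ := p
    obtain ⟨a', β'⟩ := q
    rcases eq_or_ne a a' with rfl | haa
    · have hββ : β ≠ β' := fun h => hij (by rw [h])
      have hne : tw σ a b ≠ -tw σ a b := by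
        intro h
        have h3' : (2 : ℝ) • tw σ a b = 0 := by
          rw [two_smul]; nth_rewrite 2 [h]; simp
        have h3 : tw σ a b = 0 := (smul_eq_zero.1 h3').resolve_left two_ne_zero
        have h4 : ‖b‖ = 0 := by rw [← tw_norm σ a b, h3, norm_zero]
        exact hb0.ne' h4
      cases β <;> cases β'
      · exact absurd rfl hββ
      · exact hne.symm
      · exact hne
      · exact absurd rfl hββ
    · have hneg : ctr σ b (some (a', β')) = -ctr σ b (some (a', !β')) := by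
        cases β' <;> simp [ctr]
      rw [hneg]
      exact ctr_ne_neg σ b h1 h2 haa β (!β')
  have e3 : ∀ᶠ t in 𝓝 (0 : E × E), ∀ i j, i ≠ j → par σ Y W i t.1 ≠ par σ Y W j t.2 := by
    rw [eventually_all]; intro i
    rw [eventually_all]; intro j
    rw [eventually_all]; intro hij
    have t1 : Tendsto (fun t : E × E => t.1) (𝓝 0) (𝓝 0) := continuous_fst.tendsto 0
    have t2 : Tendsto (fun t : E × E => t.2) (𝓝 0) (𝓝 0) := continuous_snd.tendsto 0
    have h12 := ((L.continuousAt_par σ i).comp t1).prodMk_nhds ((L.continuousAt_par σ j).comp t2)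
    have hop : IsOpen (diagonal E)ᶜ := isClosed_diagonal.isOpen_compl
    exact h12.eventually (hop.mem_nhds (by simpa using hctr i j hij))
  obtain ⟨r1, hr1, H1⟩ := Metric.eventually_nhds_iff_ball.1 e1
  obtain ⟨r2, hr2, H2⟩ := Metric.eventually_nhds_iff_ball.1 e2
  obtain ⟨r3, hr3, H3⟩ := Metric.eventually_nhds_iff_ball.1 e3
  have hr0 := L.r₀_pos
  refine ⟨min (min r1 r2) (min r3 r₀), ⟨?_, ?_, ?_, ?_, ?_, ?_⟩⟩
  · positivity
  · exact (min_le_right _ _).trans (min_le_right _ _)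
  · rintro i j k hg _ ⟨t1, ht1, rfl⟩ _ ⟨t2, ht2, rfl⟩ _ ⟨t3, ht3, rfl⟩
    have hle : min (min r1 r2) (min r3 r₀) ≤ r1 := (min_le_left _ _).trans (min_le_left _ _)
    refine H1 (t1, t2, t3) ?_ i j k hg
    rw [mem_ball, dist_zero_right] at ht1 ht2 ht3 ⊢
    rw [Prod.norm_def, Prod.norm_def]
    simp only [max_lt_iff]
    exact ⟨ht1.trans_le hle, ht2.trans_le hle, ht3.trans_le hle⟩
  · rintro i _ ⟨t, ht, rfl⟩
    have hle : min (min r1 r2) (min r3 r₀) ≤ r2 := (min_le_left _ _).trans (min_le_right _ _)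
    exact (H2 t (ball_subset_ball hle ht) i).1
  · rintro i _ ⟨t, ht, rfl⟩
    have hle : min (min r1 r2) (min r3 r₀) ≤ r2 := (min_le_left _ _).trans (min_le_right _ _)
    exact (H2 t (ball_subset_ball hle ht) i).2
  · intro i j hij
    rw [Set.disjoint_left]
    rintro _ ⟨t1, ht1, rfl⟩ ⟨t2, ht2, h⟩
    have hle : min (min r1 r2) (min r3 r₀) ≤ r3 := (min_le_right _ _).trans (min_le_left _ _)
    refine H3 (t1, t2) ?_ i j hij h.symm
    rw [mem_ball, dist_zero_right] at ht1 ht2 ⊢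
    rw [Prod.norm_def]
    simp only [max_lt_iff]
    exact ⟨ht1.trans_le hle, ht2.trans_le hle⟩

section Fix

variable {s : ℝ} {b : E} {r₀ K : ℝ} {Y X W Z : E → E} {φb φc : E → ℝ} {σ : E ≃ₗᵢ[ℝ] E} {r : ℝ}

omit [MeasurableSpace E] in
theorem mem_ball_symm (τ : E ≃ₗᵢ[ℝ] E) {x : E} {r : ℝ} :
    τ.symm x ∈ ball (0 : E) r ↔ x ∈ ball (0 : E) r := by
  rw [mem_ball_zero_iff, mem_ball_zero_iff, LinearIsometryEquiv.norm_map]

omit [MeasurableSpace E] in
theorem cl_none : cl σ Y W r none = ball 0 r := by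
  simp [cl, par]

/-- The good inequality in real form. -/
theorem SmallRadius.good (S : SmallRadius s b r₀ K Y W φb φc σ r)
    (L : LocalData s b r₀ K Y X W Z φb φc) (a : Fin 2) {x y z : E} (hx : x ∈ cl σ Y W r none)
    (hy : y ∈ cl σ Y W r (some (a, true))) (hz : z ∈ cl σ Y W r (some (a, false))) :
    pot s σ b K φb φc none x + pot s σ b K φb φc (some (a, true)) y +
      pot s σ b K φb φc (some (a, false)) z ≤ c s x y z ∧
    (pot s σ b K φb φc none x + pot s σ b K φb φc (some (a, true)) y +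
      pot s σ b K φb φc (some (a, false)) z = c s x y z →
      y = par σ Y W (some (a, true)) x ∧ z = par σ Y W (some (a, false)) x) := by
  have hb := ball_subset_ball (x := (0 : E)) S.le
  rw [cl_none] at hx
  obtain ⟨t, ht, rfl⟩ := hy
  obtain ⟨u, hu, rfl⟩ := hz
  set τ := tw σ a with hτ
  have hx' : τ.symm x ∈ ball (0 : E) r₀ := (mem_ball_symm τ).2 (hb hx)
  have hy' : Y (τ.symm t) ∈ Y '' ball 0 r₀ := ⟨_, (mem_ball_symm τ).2 (hb ht), rfl⟩
  have hz' : W (τ.symm u) ∈ W '' ball 0 r₀ := ⟨_, (mem_ball_symm τ).2 (hb hu), rfl⟩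
  have hsum : pot s σ b K φb φc none x +
      pot s σ b K φb φc (some (a, true)) (par σ Y W (some (a, true)) t) +
      pot s σ b K φb φc (some (a, false)) (par σ Y W (some (a, false)) u) =
      c s 0 b (-b) - K * ‖τ.symm x‖ ^ 2 + φb (Y (τ.symm t)) + φc (W (τ.symm u)) := by
    rw [LocalData.c_zero, LinearIsometryEquiv.norm_map]
    simp only [pot, par, ← hτ, LinearIsometryEquiv.symm_apply_apply]
    ring
  have hc : c s x (par σ Y W (some (a, true)) t) (par σ Y W (some (a, false)) u) =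
      c s (τ.symm x) (Y (τ.symm t)) (W (τ.symm u)) := by
    rw [← c_isom s τ.symm]
    simp only [par, ← hτ, LinearIsometryEquiv.symm_apply_apply]
  rw [hsum, hc]
  refine ⟨L.ineq _ hx' _ hy' _ hz', fun h => ?_⟩
  obtain ⟨h1, h2⟩ := L.ineq_eq _ hx' _ hy' _ hz' h
  simp only [par, ← hτ]
  rw [h1, h2]
  exact ⟨rfl, rfl⟩

theorem SmallRadius.good_eq (S : SmallRadius s b r₀ K Y W φb φc σ r)
    (L : LocalData s b r₀ K Y X W Z φb φc) (a : Fin 2) {x : E} (hx : x ∈ cl σ Y W r none) :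
    pot s σ b K φb φc none x +
      pot s σ b K φb φc (some (a, true)) (par σ Y W (some (a, true)) x) +
      pot s σ b K φb φc (some (a, false)) (par σ Y W (some (a, false)) x) =
      c s x (par σ Y W (some (a, true)) x) (par σ Y W (some (a, false)) x) := by
  have hb := ball_subset_ball (x := (0 : E)) S.le
  rw [cl_none] at hx
  set τ := tw σ a with hτ
  have hx' : τ.symm x ∈ ball (0 : E) r₀ := (mem_ball_symm τ).2 (hb hx)
  have hsum : pot s σ b K φb φc none x +
      pot s σ b K φb φc (some (a, true)) (par σ Y W (some (a, true)) x) +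
      pot s σ b K φb φc (some (a, false)) (par σ Y W (some (a, false)) x) =
      c s 0 b (-b) - K * ‖τ.symm x‖ ^ 2 + φb (Y (τ.symm x)) + φc (W (τ.symm x)) := by
    rw [LocalData.c_zero, LinearIsometryEquiv.norm_map]
    simp only [pot, par, ← hτ, LinearIsometryEquiv.symm_apply_apply]
    ring
  have hc : c s x (par σ Y W (some (a, true)) x) (par σ Y W (some (a, false)) x) =
      c s (τ.symm x) (Y (τ.symm x)) (W (τ.symm x)) := by
    rw [← c_isom s τ.symm]
    simp only [par, ← hτ, LinearIsometryEquiv.symm_apply_apply]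
  rw [hsum, hc]
  exact L.eq _ hx'

omit [MeasurableSpace E] in
theorem SmallRadius.ne (S : SmallRadius s b r₀ K Y W φb φc σ r) {i j : Lab} (hij : i ≠ j)
    {x y : E} (hx : x ∈ cl σ Y W r i) (hy : y ∈ cl σ Y W r j) : x ≠ y := by
  rintro rfl
  exact Set.disjoint_left.1 (S.disj i j hij) hx hy

/-- The good inequality in `ℝ≥0∞`. -/
theorem SmallRadius.good_enn (S : SmallRadius s b r₀ K Y W φb φc σ r)
    (L : LocalData s b r₀ K Y X W Z φb φc) (a : Fin 2) {x y z : E} (hx : x ∈ cl σ Y W r none)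
    (hy : y ∈ cl σ Y W r (some (a, true))) (hz : z ∈ cl σ Y W r (some (a, false))) :
    ENNReal.ofReal (pot s σ b K φb φc none x) + ENNReal.ofReal (pot s σ b K φb φc (some (a, true)) y)
      + ENNReal.ofReal (pot s σ b K φb φc (some (a, false)) z) ≤ tripleCost s (x, y, z) ∧
    (ENNReal.ofReal (pot s σ b K φb φc none x) + ENNReal.ofReal (pot s σ b K φb φc (some (a, true)) y)
      + ENNReal.ofReal (pot s σ b K φb φc (some (a, false)) z) = tripleCost s (x, y, z) →
      y = par σ Y W (some (a, true)) x ∧ z = par σ Y W (some (a, false)) x) := by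
  have hxy : x ≠ y := S.ne (by simp) hx hy
  have hxz : x ≠ z := S.ne (by simp) hx hz
  have hyz : y ≠ z := S.ne (by simp) hy hz
  have p1 := S.pot_pos _ x hx
  have p2 := S.pot_pos _ y hy
  have p3 := S.pot_pos _ z hz
  obtain ⟨g1, g2⟩ := S.good L a hx hy hz
  rw [tripleCost_of_ne s hxy hxz hyz, ← ENNReal.ofReal_add p1.le p2.le,
    ← ENNReal.ofReal_add (add_nonneg p1.le p2.le) p3.le]
  refine ⟨ENNReal.ofReal_le_ofReal g1, fun h => g2 ?_⟩
  have hcn : 0 ≤ c s x y z := by unfold c; positivity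
  rwa [ENNReal.ofReal_eq_ofReal_iff (by positivity) hcn] at h

theorem SmallRadius.good_enn_eq (S : SmallRadius s b r₀ K Y W φb φc σ r)
    (L : LocalData s b r₀ K Y X W Z φb φc) (a : Fin 2) {x : E} (hx : x ∈ cl σ Y W r none) :
    ENNReal.ofReal (pot s σ b K φb φc none x) +
      ENNReal.ofReal (pot s σ b K φb φc (some (a, true)) (par σ Y W (some (a, true)) x)) +
      ENNReal.ofReal (pot s σ b K φb φc (some (a, false)) (par σ Y W (some (a, false)) x)) =
      tripleCost s (x, par σ Y W (some (a, true)) x, par σ Y W (some (a, false)) x) := by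
  have hx0 : x ∈ ball (0 : E) r := by rwa [cl_none] at hx
  have hy : par σ Y W (some (a, true)) x ∈ cl σ Y W r (some (a, true)) := ⟨x, hx0, rfl⟩
  have hz : par σ Y W (some (a, false)) x ∈ cl σ Y W r (some (a, false)) := ⟨x, hx0, rfl⟩
  have hxy := S.ne (by simp) hx hy
  have hxz := S.ne (by simp) hx hz
  have hyz := S.ne (by simp) hy hz
  have p1 := S.pot_pos _ _ hx
  have p2 := S.pot_pos _ _ hy
  have p3 := S.pot_pos _ _ hz
  rw [tripleCost_of_ne s hxy hxz hyz, ← ENNReal.ofReal_add p1.le p2.le,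
    ← ENNReal.ofReal_add (add_nonneg p1.le p2.le) p3.le, S.good_eq L a hx]

/-- The dual potential. -/
noncomputable def Pot (s : ℝ) (σ : E ≃ₗᵢ[ℝ] E) (b : E) (K : ℝ) (φb φc : E → ℝ) (Y W : E → E)
    (r : ℝ) (x : E) : ℝ≥0∞ :=
  ∑ i : Lab, (cl σ Y W r i).indicator (fun x => ENNReal.ofReal (pot s σ b K φb φc i x)) x

omit [MeasurableSpace E] in
theorem SmallRadius.Pot_eq (S : SmallRadius s b r₀ K Y W φb φc σ r) {i : Lab} {x : E}
    (hx : x ∈ cl σ Y W r i) :
    Pot s σ b K φb φc Y W r x = ENNReal.ofReal (pot s σ b K φb φc i x) := by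
  unfold Pot
  rw [Finset.sum_eq_single i]
  · rw [indicator_of_mem hx]
  · intro j _ hj
    rw [indicator_of_notMem]
    exact fun h => Set.disjoint_left.1 (S.disj i j hj.symm) hx h
  · intro h; exact absurd (Finset.mem_univ i) h

/-- Dual feasibility on the union of the clusters, with equality case. -/
theorem SmallRadius.feasible (S : SmallRadius s b r₀ K Y W φb φc σ r)
    (L : LocalData s b r₀ K Y X W Z φb φc) {i j k : Lab} {x y z : E}
    (hx : x ∈ cl σ Y W r i) (hy : y ∈ cl σ Y W r j) (hz : z ∈ cl σ Y W r k) :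
    Pot s σ b K φb φc Y W r x + Pot s σ b K φb φc Y W r y + Pot s σ b K φb φc Y W r z ≤
      tripleCost s (x, y, z) := by
  rw [S.Pot_eq hx, S.Pot_eq hy, S.Pot_eq hz]
  by_cases hg : Good i j k
  · obtain ⟨a, ⟨rfl, rfl, rfl⟩ | ⟨rfl, rfl, rfl⟩ | ⟨rfl, rfl, rfl⟩ | ⟨rfl, rfl, rfl⟩ |
      ⟨rfl, rfl, rfl⟩ | ⟨rfl, rfl, rfl⟩⟩ := hg
    · exact (S.good_enn L a hx hy hz).1
    · have := (S.good_enn L a hx hz hy).1
      rw [tripleCost_swap23]
      refine le_trans (le_of_eq ?_) this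
      ring
    · have := (S.good_enn L a hy hx hz).1
      rw [tripleCost_swap12]
      refine le_trans (le_of_eq ?_) this
      ring
    · have := (S.good_enn L a hy hz hx).1
      rw [tripleCost_swap12, tripleCost_swap23]
      refine le_trans (le_of_eq ?_) this
      ring
    · have := (S.good_enn L a hz hx hy).1
      rw [tripleCost_swap23, tripleCost_swap12]
      refine le_trans (le_of_eq ?_) this
      ring
    · have := (S.good_enn L a hz hy hx).1
      rw [tripleCost_swap12, tripleCost_swap23, tripleCost_swap12]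
      refine le_trans (le_of_eq ?_) this
      ring
  · exact (S.gap i j k hg x hx y hy z hz).le

theorem SmallRadius.slack (S : SmallRadius s b r₀ K Y W φb φc σ r)
    (L : LocalData s b r₀ K Y X W Z φb φc) {j k : Lab} {x y z : E}
    (hx : x ∈ cl σ Y W r none) (hy : y ∈ cl σ Y W r j) (hz : z ∈ cl σ Y W r k)
    (h : Pot s σ b K φb φc Y W r x + Pot s σ b K φb φc Y W r y + Pot s σ b K φb φc Y W r z =
      tripleCost s (x, y, z)) :
    ∃ a, y = par σ Y W (some (a, true)) x ∨ y = par σ Y W (some (a, false)) x := by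
  rw [S.Pot_eq hx, S.Pot_eq hy, S.Pot_eq hz] at h
  by_cases hg : Good none j k
  · obtain ⟨a, ⟨-, rfl, rfl⟩ | ⟨-, rfl, rfl⟩ | ⟨-, h', -⟩ | ⟨-, -, h'⟩ |
      ⟨-, h', -⟩ | ⟨-, -, h'⟩⟩ := hg
    · exact ⟨a, Or.inl ((S.good_enn L a hx hy hz).2 h).1⟩
    · refine ⟨a, Or.inr ((S.good_enn L a hx hz hy).2 ?_).2⟩
      rw [tripleCost_swap23, ← h]; ring
    · exact absurd h' (by simp)
    · exact absurd h' (by simp)
    · exact absurd h' (by simp)
    · exact absurd h' (by simp)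
  · exact absurd h (S.gap _ j k hg x hx y hy z hz).ne

end Fix

omit [MeasurableSpace E] in
theorem tw_image_ball (τ : E ≃ₗᵢ[ℝ] E) (r : ℝ) : τ '' ball (0 : E) r = ball 0 r := by
  simp

/-- The certificate from the local structure, in a general space. -/
theorem certificate_aux [FiniteDimensional ℝ E] [BorelSpace E] {s : ℝ} (hs : 0 < s) {b : E}
    (hb : b ≠ 0) (σ : E ≃ₗᵢ[ℝ] E) (h1 : σ b ≠ b) (h2 : σ b ≠ -b)
    (hL : ∃ r₀ > 0, ∃ K : ℝ, 0 ≤ K ∧ ∃ Y X W Z : E → E, ∃ φb φc : E → ℝ,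
      SmoothPair (ball (0 : E) r₀) Y X ∧ SmoothPair (ball (0 : E) r₀) W Z ∧
      Y 0 = b ∧ W 0 = -b ∧ φb b = 0 ∧ φc (-b) = 0 ∧
      ContinuousOn φb (Y '' ball 0 r₀) ∧ ContinuousOn φc (W '' ball 0 r₀) ∧
      (∀ x ∈ ball (0 : E) r₀, ∀ y ∈ Y '' ball 0 r₀, ∀ z ∈ W '' ball 0 r₀,
        c s 0 b (-b) - K * ‖x‖ ^ 2 + φb y + φc z ≤ c s x y z) ∧
      (∀ x ∈ ball (0 : E) r₀, ∀ y ∈ Y '' ball 0 r₀, ∀ z ∈ W '' ball 0 r₀,
        c s 0 b (-b) - K * ‖x‖ ^ 2 + φb y + φc z = c s x y z → y = Y x ∧ z = W x) ∧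
      (∀ x ∈ ball (0 : E) r₀,
        c s 0 b (-b) - K * ‖x‖ ^ 2 + φb (Y x) + φc (W x) = c s x (Y x) (W x))) :
    ∃ r > 0, ∃ Y X W Z : Fin 2 → E → E,
    ∃ Φ : E → ℝ≥0∞, ∃ M : ℝ≥0∞, M < ⊤ ∧ (∀ x, Φ x ≤ M) ∧ Measurable Φ ∧
      (∀ i, SmoothPair (ball 0 r) (Y i) (X i)) ∧ (∀ i, SmoothPair (ball 0 r) (W i) (Z i)) ∧
      (∀ i, Disjoint (ball 0 r) (Y i '' ball 0 r)) ∧ (∀ i, Disjoint (ball 0 r) (W i '' ball 0 r)) ∧
      (∀ i j, Disjoint (Y i '' ball 0 r) (W j '' ball 0 r)) ∧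
      Disjoint (Y 0 '' ball 0 r) (Y 1 '' ball 0 r) ∧ Disjoint (W 0 '' ball 0 r) (W 1 '' ball 0 r) ∧
      (∀ x ∈ N (ball 0 r) Y W, ∀ y ∈ N (ball 0 r) Y W, ∀ z ∈ N (ball 0 r) Y W,
        Φ x + Φ y + Φ z ≤ tripleCost s (x, y, z)) ∧
      (∀ x ∈ ball 0 r, ∀ y ∈ N (ball 0 r) Y W, ∀ z ∈ N (ball 0 r) Y W,
        Φ x + Φ y + Φ z = tripleCost s (x, y, z) → ∃ i, y = Y i x ∨ y = W i x) ∧
      (∀ x ∈ ball 0 r, ∀ i, Φ x + Φ (Y i x) + Φ (W i x) = tripleCost s (x, Y i x, W i x)) := by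
  obtain ⟨r₀, hr₀, K, -, Y, X, W, Z, φb, φc, hY, hW, hY0, hW0, hφb, hφc, hcb, hcc, i1, i2, i3⟩ := hL
  have L : LocalData s b r₀ K Y X W Z φb φc :=
    ⟨hr₀, hY, hW, hY0, hW0, hφb, hφc, hcb, hcc, i1, i2, i3⟩
  obtain ⟨r, S⟩ := L.exists_small hs hb σ h1 h2
  have hYr : SmoothPair (ball (0 : E) r) Y X := hY.mono_cert isOpen_ball (ball_subset_ball S.le)
  have hWr : SmoothPair (ball (0 : E) r) W Z := hW.mono_cert isOpen_ball (ball_subset_ball S.le)
  have hYi : ∀ i, SmoothPair (ball (0 : E) r) (par σ Y W (some (i, true)))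
      (fun x => tw σ i (X ((tw σ i).symm x))) := fun i => by
    have := hYr.conj_cert (tw σ i)
    rwa [tw_image_ball] at this
  have hWi : ∀ i, SmoothPair (ball (0 : E) r) (par σ Y W (some (i, false)))
      (fun x => tw σ i (Z ((tw σ i).symm x))) := fun i => by
    have := hWr.conj_cert (tw σ i)
    rwa [tw_image_ball] at this
  have hclm : ∀ i, MeasurableSet (cl σ Y W r i) := by
    intro i
    rcases i with _ | ⟨a, β⟩
    · rw [cl_none]; exact measurableSet_ball
    cases β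
    · exact (hWi a).isOpen_target.measurableSet
    · exact (hYi a).isOpen_target.measurableSet
  have hN : ∀ x ∈ N (ball 0 r) (fun i => par σ Y W (some (i, true)))
      (fun i => par σ Y W (some (i, false))), ∃ i, x ∈ cl σ Y W r i := by
    rintro x ((hx | hx) | hx)
    · exact ⟨none, by rw [cl_none]; exact hx⟩
    · obtain ⟨i, hi⟩ := mem_iUnion.1 hx
      exact ⟨some (i, true), hi⟩
    · obtain ⟨i, hi⟩ := mem_iUnion.1 hx
      exact ⟨some (i, false), hi⟩
  have hcont : ∀ i, ContinuousOn (pot s σ b K φb φc i) (cl σ Y W r i) := by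
    intro i
    rcases i with _ | ⟨a, β⟩
    · unfold pot; fun_prop
    cases β
    · unfold pot
      refine continuousOn_const.add (hcc.comp (tw σ a).symm.continuous.continuousOn ?_)
      rintro _ ⟨t, ht, rfl⟩
      simp only [par, LinearIsometryEquiv.symm_apply_apply]
      exact ⟨_, (mem_ball_symm _).2 (ball_subset_ball S.le ht), rfl⟩
    · unfold pot
      refine continuousOn_const.add (hcb.comp (tw σ a).symm.continuous.continuousOn ?_)
      rintro _ ⟨t, ht, rfl⟩
      simp only [par, LinearIsometryEquiv.symm_apply_apply]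
      exact ⟨_, (mem_ball_symm _).2 (ball_subset_ball S.le ht), rfl⟩
  refine ⟨r, S.pos, fun i => par σ Y W (some (i, true)), fun i x => tw σ i (X ((tw σ i).symm x)),
    fun i => par σ Y W (some (i, false)), fun i x => tw σ i (Z ((tw σ i).symm x)),
    Pot s σ b K φb φc Y W r, ∑ i : Lab, ENNReal.ofReal (val s b i + 1), ?_, ?_, ?_, hYi, hWi,
    ?_, ?_, ?_, ?_, ?_, ?_, ?_, ?_⟩
  · exact ENNReal.sum_lt_top.2 fun i _ => ENNReal.ofReal_lt_top
  · intro x
    refine Finset.sum_le_sum fun i _ => ?_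
    by_cases hx : x ∈ cl σ Y W r i
    · rw [indicator_of_mem hx]
      exact ENNReal.ofReal_le_ofReal (S.pot_lt i x hx).le
    · rw [indicator_of_notMem hx]; simp
  · refine Finset.measurable_sum _ fun i _ => ?_
    have h3 : ContinuousOn (fun x => ENNReal.ofReal (pot s σ b K φb φc i x)) (cl σ Y W r i) :=
      ENNReal.continuous_ofReal.comp_continuousOn (hcont i)
    classical
    have := h3.measurable_piecewise (g := (0 : E → ℝ≥0∞)) continuousOn_const (hclm i)
    rwa [Set.piecewise_eq_indicator] at this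
  · intro i
    have := S.disj none (some (i, true)) (by simp)
    rwa [cl_none] at this
  · intro i
    have := S.disj none (some (i, false)) (by simp)
    rwa [cl_none] at this
  · intro i j
    exact S.disj (some (i, true)) (some (j, false)) (by simp)
  · exact S.disj (some (0, true)) (some (1, true)) (by simp)
  · exact S.disj (some (0, false)) (some (1, false)) (by simp)
  · intro x hx y hy z hz
    obtain ⟨i, hi⟩ := hN x hx
    obtain ⟨j, hj⟩ := hN y hy
    obtain ⟨k, hk⟩ := hN z hz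
    exact S.feasible L hi hj hk
  · intro x hx y hy z hz h
    obtain ⟨j, hj⟩ := hN y hy
    obtain ⟨k, hk⟩ := hN z hz
    rw [← cl_none (σ := σ) (Y := Y) (W := W)] at hx
    exact S.slack L hx hj hk h
  · intro x hx i
    rw [← cl_none (σ := σ) (Y := Y) (W := W)] at hx
    have hx0 : x ∈ ball (0 : E) r := by rwa [cl_none] at hx
    have hy : par σ Y W (some (i, true)) x ∈ cl σ Y W r (some (i, true)) := ⟨x, hx0, rfl⟩
    have hz : par σ Y W (some (i, false)) x ∈ cl σ Y W r (some (i, false)) := ⟨x, hx0, rfl⟩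
    simp only
    rw [S.Pot_eq hx, S.Pot_eq hy, S.Pot_eq hz]
    exact S.good_enn_eq L i hx

end Main

/-- A vector and a linear isometry moving it off the line it spans. -/
theorem exists_sym (d : ℕ) (hd : 2 ≤ d) : ∃ b : EuclideanSpace ℝ (Fin d),
    ∃ σ : EuclideanSpace ℝ (Fin d) ≃ₗᵢ[ℝ] EuclideanSpace ℝ (Fin d),
      b ≠ 0 ∧ σ b ≠ b ∧ σ b ≠ -b := by
  set i₀ : Fin d := ⟨0, by omega⟩
  set i₁ : Fin d := ⟨1, by omega⟩
  have h01 : i₁ ≠ i₀ := by simp [i₀, i₁]
  have hσ : LinearIsometryEquiv.piLpCongrLeft 2 ℝ ℝ (Equiv.swap i₀ i₁)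
      (EuclideanSpace.single i₀ 1) = EuclideanSpace.single i₁ (1 : ℝ) := by
    rw [EuclideanSpace.piLpCongrLeft_single, Equiv.swap_apply_left]
  refine ⟨EuclideanSpace.single i₀ 1, LinearIsometryEquiv.piLpCongrLeft 2 ℝ ℝ (Equiv.swap i₀ i₁),
    ?_, ?_, ?_⟩
  · intro h
    have := congrArg (fun v : EuclideanSpace ℝ (Fin d) => v i₀) h
    simp at this
  · rw [hσ]
    intro h
    have := congrArg (fun v : EuclideanSpace ℝ (Fin d) => v i₁) h
    simp [h01] at this
  · rw [hσ]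
    intro h
    have := congrArg (fun v : EuclideanSpace ℝ (Fin d) => v i₁) h
    simp [h01] at this

end Crest.Agent.R130
private theorem rz_eea8101161 : type_of% @_root_.Crest.Agent.R130.ctr.eq_1 := @_root_.Crest.Agent.R130.ctr.eq_1 -- L88
private theorem rz_ddf5cfc217 : type_of% @_root_.Crest.Agent.R130.par.eq_1 := @_root_.Crest.Agent.R130.par.eq_1 -- L82
private theorem rz_b0f5e50f85 : type_of% @_root_.Crest.Agent.R130.pot.eq_1 := @_root_.Crest.Agent.R130.pot.eq_1 -- L94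
private theorem rz_49f1c6ad42 : type_of% @_root_.Crest.Agent.R130.val.eq_1 := @_root_.Crest.Agent.R130.val.eq_1 -- L100
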